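import Vale.Agent.P273.H730.One1
import Vale.Agent.P273.H973.Pol

/-!
# P273, row ASY1-CORE (helper188)

From local bounds of the one mark form near merged configurations (`GO`) and the size of the flat
data near the divisor (`DatO`) to the uniform core bounds `CoreO` of 730, and to `RootO`, `FarO`.
-/

noncomputable section

namespace Vale.Agent.P273.H188

open Set Filter H681 H95 H973 H730
open scoped Topology ContDiff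

/-- coefficients of the flat form -/
abbrev AA := (Fin 6 → ℝ) → C6 → (ℂ × ℂ →L[ℝ] ℝ)
/-- constants of the flat form -/
abbrev CO := (Fin 6 → ℝ) → C6 → ℝ

/-- local bound at a point of the plane -/
def G1 (O : One) (A : AA) (c : CO) (b : C6) (x : ℂ) (C : ℝ) : Prop :=
  b ∈ XX → ∀ v, On1 false (b, x) v → ∀ ξ, IsCl ξ → ∀ (β : C6) (ζ : ℂ),
    |O.η ξ false (b, x) v (β, ζ)| ≤
      C * (‖A ξ b‖ * (‖β‖ + ‖ζ‖) + ‖fderiv ℝ (A ξ) b β‖ + |fderiv ℝ (c ξ) b β|)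

/-- local bound near infinity -/
def G2 (O : One) (A : AA) (c : CO) (b : C6) (R C : ℝ) : Prop :=
  b ∈ XX → ∀ x v, R < ‖x‖ → On1 false (b, x) v → ∀ ξ, IsCl ξ →
    (∀ ζ : ℂ, O.η ξ false (b, x) v (0, ζ) = 0) ∧
    ∀ β : C6, |O.η ξ false (b, x) v (β, 0)| ≤
      C * (‖A ξ b‖ * ‖β‖ + ‖fderiv ℝ (A ξ) b β‖ + |fderiv ℝ (c ξ) b β|)

/-- the local bounds near merged configurations -/
structure GO (O : One) (A : AA) (c : CO) : Prop where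
  fin : ∀ k : Fin 5, ∀ q ∈ H828.XD k, ∀ x : ℂ, (∀ l, q l ≠ x) →
    ∃ C : ℝ, 0 ≤ C ∧ ∀ᶠ p : E1 in 𝓝 (q, x), G1 O A c p.1 p.2 C
  root : ∀ k : Fin 5, ∀ q ∈ H828.XD k, ∀ l : Fin 6, l ≠ k.castSucc → l ≠ k.succ →
    ∀ᶠ p : E1 in 𝓝 (q, q l), p.1 ∈ XX → ∀ v, On1 false p v → ∀ ξ, IsCl ξ → O.η ξ false p v = 0
  far : ∀ k : Fin 5, ∀ q ∈ H828.XD k, ∃ R : ℝ, 0 < R ∧ ∃ C : ℝ, 0 ≤ C ∧
    ∀ᶠ b in 𝓝 q, G2 O A c b R C

/-- size of the flat data at the configuration `bd k q d` -/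
def DB (A : C6 → (ℂ × ℂ →L[ℝ] ℝ)) (c : C6 → ℝ) (k : Fin 5) (q : C6) (d : ℂ) (K : ℝ)
    (N : C6 → ℂ → ℝ) : Prop :=
  ‖A (bd k q d)‖ ≤ K ∧ ∀ (δ : C6) (lam : ℂ),
    ‖fderiv ℝ A (bd k q d) (bw k δ d lam)‖ ≤ K * N δ lam ∧
    |fderiv ℝ c (bd k q d) (bw k δ d lam)| ≤ K * N δ lam

/-- **the size of the flat data near the divisor** -/
def DatO (A : AA) (c : CO) : Prop := ∀ k : Fin 5, ∀ q₀ ∈ H828.XD k, ∃ U ∈ 𝓝 q₀,
  ∀ c₁ : ℝ, 0 < c₁ → ∃ M₀ B : ℝ, 0 < M₀ ∧ 0 < B ∧ ∀ q d, Adm k U c₁ M₀ q d →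
    (∀ ξ, IsCl ξ →
      DB (A ξ) (c ξ) k q d (B * ‖ξ‖) (fun δ lam => ‖δ‖ + (yl c₁ d)⁻¹ * ‖lam‖ + |lam.im|) ∧
      (ξ k.castSucc = ξ k.succ →
        DB (A ξ) (c ξ) k q d (B * ‖ξ‖) (fun δ lam => ‖δ‖ + (yl c₁ d)⁻¹ * ‖lam‖))) ∧
    DB (A (alc k)) (c (alc k)) k q d (B * (yl c₁ d)⁻¹)
      (fun δ lam => ‖δ‖ + (yl c₁ d)⁻¹ * ‖lam‖)

/-! ### elementary facts -/

lemma isOpen_imp' {X : Type*} [TopologicalSpace X] {a b e f : X → ℝ} (ha : Continuous a)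
    (hb : Continuous b) (he : Continuous e) (hf : Continuous f) :
    IsOpen {p | a p = b p → e p < f p} := by
  have h : {p | a p = b p → e p < f p} = ({p | a p = b p} ∩ {p | f p ≤ e p})ᶜ := by
    ext p
    rw [mem_compl_iff, mem_inter_iff]
    exact ⟨fun h h' => not_le.2 (h h'.1) h'.2, fun h h1 => not_le.1 fun h2 => h ⟨h1, h2⟩⟩
  rw [h]
  exact ((isClosed_eq ha hb).inter (isClosed_le hf he)).isOpen_compl

lemma exists_open_XD (k : Fin 5) : ∃ V : Set C6, IsOpen V ∧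
    H828.XD k = {b | b k.castSucc = b k.succ} ∩ V := by
  refine ⟨⋂ i : Fin 6, ⋂ j : Fin 6, ⋂ _ : i < j, ⋂ _ : (i ≠ k.castSucc ∨ j ≠ k.succ),
    {b : C6 | (b i).re = (b j).re → (b j).im < (b i).im}, ?_, ?_⟩
  · refine isOpen_iInter_of_finite fun i => isOpen_iInter_of_finite fun j =>
      isOpen_iInter_of_finite fun _ => isOpen_iInter_of_finite fun _ =>
      isOpen_imp' ?_ ?_ ?_ ?_ <;> fun_prop
  · ext b
    simp only [H828.XD, mem_inter_iff, mem_iInter, Set.mem_ofPred_eq]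

lemma exists_cpt (k : Fin 5) {q₀ : C6} (h : q₀ ∈ H828.XD k) {U : Set C6} (hU : U ∈ 𝓝 q₀) :
    ∃ N ∈ 𝓝 q₀, N ⊆ U ∧ IsCompact (N ∩ H828.XD k) := by
  obtain ⟨V, hV, e⟩ := exists_open_XD k
  have hq : q₀ ∈ V := by
    rw [e] at h
    exact h.2
  obtain ⟨N, hN, hNU, hNc⟩ := local_compact_nhds (inter_mem hU (hV.mem_nhds hq))
  refine ⟨N, hN, fun x hx => (hNU hx).1, ?_⟩
  have e1 : N ∩ H828.XD k = N ∩ {b | b k.castSucc = b k.succ} := by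
    rw [e]
    ext x
    constructor
    · rintro ⟨h1, h2, _⟩
      exact ⟨h1, h2⟩
    · rintro ⟨h1, h2⟩
      exact ⟨h1, h2, (hNU h1).2⟩
  rw [e1]
  exact hNc.inter_right (isClosed_eq (continuous_apply _) (continuous_apply _))

lemma norm_pr_le (k : Fin 5) (δ : C6) (u : ℂ) : ‖H828.pr k δ (δ k.castSucc) u‖ ≤ ‖δ‖ + ‖u‖ := by
  rw [pi_norm_le_iff_of_nonneg (by positivity)]
  intro j
  unfold H828.pr
  split_ifs
  · refine (norm_sub_le _ _).trans ?_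
    gcongr
    exact norm_le_pi_norm _ _
  · refine (norm_add_le _ _).trans ?_
    gcongr
    exact norm_le_pi_norm _ _
  · refine (norm_le_pi_norm _ _).trans ?_
    have := norm_nonneg u
    linarith

lemma norm_bd_sub (k : Fin 5) {q : C6} (h : q k.castSucc = q k.succ) (d : ℂ) :
    ‖bd k q d - q‖ ≤ ‖d‖ := by
  rw [pi_norm_le_iff_of_nonneg (by positivity)]
  intro j
  rw [Pi.sub_apply]
  unfold bd H828.pr
  split_ifs with h1 h2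
  · rw [h1]
    simp
  · rw [h2, ← h]
    simp
  · simp

lemma yl_bound {c : ℝ} {d : ℂ} (hd : d ≠ 0) (hc : 0 < c) : ‖d‖ * yl c d ≤ 2 * c := by
  have h1 : 0 < ‖d‖ := norm_pos_iff.2 hd
  have h2 : Real.log (c / ‖d‖) ≤ c / ‖d‖ := by
    have := Real.log_le_sub_one_of_pos (div_pos hc h1)
    linarith
  unfold yl
  calc ‖d‖ * (2 * Real.log (c / ‖d‖)) ≤ ‖d‖ * (2 * (c / ‖d‖)) := by gcongr
    _ = 2 * c := by field_simp

lemma norm_d_le {c : ℝ} {d : ℂ} (hd : d ≠ 0) (hc : 0 < c) (hy : 0 < yl c d) :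
    ‖d‖ ≤ 2 * c * (yl c d)⁻¹ := by
  rw [← div_eq_mul_inv, le_div_iff₀ hy]
  exact yl_bound hd hc

lemma norm_d_lt {c M ε : ℝ} {d : ℂ} (hd : d ≠ 0) (hc : 0 < c) (hε : 0 < ε) (hM : 2 * c / ε < M)
    (hy : M ≤ yl c d) : ‖d‖ < ε := by
  have h0 : 0 < 2 * c / ε := by positivity
  have h1 : 0 < yl c d := by linarith
  have h2 := norm_d_le hd hc h1
  refine lt_of_le_of_lt h2 ?_
  rw [← div_eq_mul_inv, div_lt_iff₀ h1]
  rw [div_lt_iff₀ hε] at hM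
  calc 2 * c < M * ε := hM
    _ ≤ yl c d * ε := by gcongr
    _ = ε * yl c d := mul_comm _ _

/-- local bounds give uniform bounds near a compact set -/
lemma cpt_bound {X : Type*} [PseudoMetricSpace X] {K : Set X} (hK : IsCompact K)
    {P : X → ℝ → Prop} (hm : ∀ x C C', P x C → C ≤ C' → P x C')
    (h : ∀ x ∈ K, ∃ C, ∀ᶠ y in 𝓝 x, P y C) :
    ∃ ε > 0, ∃ C > 0, ∀ x ∈ K, ∀ y, dist y x < ε → P y C := by
  have h1 : ∃ C, ∀ᶠ y in 𝓝ˢ K, P y C := by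
    refine hK.induction_on (p := fun S => ∃ C, ∀ᶠ y in 𝓝ˢ S, P y C) ⟨0, by simp⟩ ?_ ?_ ?_
    · rintro s t hst ⟨C, hC⟩
      exact ⟨C, hC.filter_mono (nhdsSet_mono hst)⟩
    · rintro s t ⟨C, hC⟩ ⟨C', hC'⟩
      refine ⟨max C C', ?_⟩
      rw [nhdsSet_union, eventually_sup]
      exact ⟨hC.mono fun y hy => hm _ _ _ hy (le_max_left _ _),
        hC'.mono fun y hy => hm _ _ _ hy (le_max_right _ _)⟩
    · intro x hx
      obtain ⟨C, hC⟩ := h x hx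
      obtain ⟨W, hW, hWo, hxW⟩ := eventually_nhds_iff.1 hC
      refine ⟨W, mem_nhdsWithin_of_mem_nhds (hWo.mem_nhds hxW), C, ?_⟩
      rw [hWo.nhdsSet_eq]
      exact eventually_principal.2 hW
  obtain ⟨C, hC⟩ := h1
  obtain ⟨ε, hε, hs⟩ := (Metric.hasBasis_nhdsSet_thickening hK).eventually_iff.1 hC
  refine ⟨ε, hε, max C 1, by positivity, fun x hx y hy => ?_⟩
  exact hm _ _ _ (hs (Metric.mem_thickening_iff.2 ⟨x, hx, hy⟩)) (le_max_left _ _)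

/-! ### the combination with the data -/

/-- the arithmetic of one class -/
lemma comb {A : C6 → (ℂ × ℂ →L[ℝ] ℝ)} {c : C6 → ℝ} {k : Fin 5} {q : C6} {d : ℂ} {K : ℝ}
    {N : C6 → ℂ → ℝ} (h : DB A c k q d K N) {C c₁ : ℝ} (hc₁ : 0 < c₁) (hd : d ≠ 0) (hC : 0 ≤ C)
    (hK : 0 ≤ K) (hy : 0 < yl c₁ d) (δ : C6) (lam dz : ℂ)
    (hN : ‖δ‖ + (yl c₁ d)⁻¹ * ‖lam‖ ≤ N δ lam) :
    C * (‖A (bd k q d)‖ * (‖bw k δ d lam‖ + ‖dz‖) + ‖fderiv ℝ A (bd k q d) (bw k δ d lam)‖ +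
      |fderiv ℝ c (bd k q d) (bw k δ d lam)|) ≤
      C * (3 + 2 * c₁) * K * (N δ lam + ‖dz‖) := by
  obtain ⟨h1, h2⟩ := h
  obtain ⟨h3, h4⟩ := h2 δ lam
  have h5 : ‖bw k δ d lam‖ ≤ ‖δ‖ + ‖d * lam‖ := norm_pr_le k δ (d * lam)
  have h6 : ‖d * lam‖ ≤ 2 * c₁ * ((yl c₁ d)⁻¹ * ‖lam‖) := by
    rw [norm_mul]
    calc ‖d‖ * ‖lam‖ ≤ (2 * c₁ * (yl c₁ d)⁻¹) * ‖lam‖ := by
          gcongr
          exact norm_d_le hd hc₁ hy
      _ = _ := by ring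
  have h7 : 0 ≤ (yl c₁ d)⁻¹ * ‖lam‖ := by positivity
  have h8 : 0 ≤ ‖δ‖ := norm_nonneg _
  have h9 : ‖bw k δ d lam‖ ≤ (1 + 2 * c₁) * N δ lam := by
    calc ‖bw k δ d lam‖ ≤ ‖δ‖ + 2 * c₁ * ((yl c₁ d)⁻¹ * ‖lam‖) := by linarith
      _ ≤ (1 + 2 * c₁) * (‖δ‖ + (yl c₁ d)⁻¹ * ‖lam‖) := by nlinarith
      _ ≤ (1 + 2 * c₁) * N δ lam := by gcongr
  have h10 : ‖A (bd k q d)‖ * (‖bw k δ d lam‖ + ‖dz‖) ≤ K * ((1 + 2 * c₁) * N δ lam + ‖dz‖) := by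
    gcongr
  have h11 : 0 ≤ ‖dz‖ := norm_nonneg _
  have hN0 : 0 ≤ N δ lam := by linarith
  calc C * (‖A (bd k q d)‖ * (‖bw k δ d lam‖ + ‖dz‖) + ‖fderiv ℝ A (bd k q d) (bw k δ d lam)‖ +
      |fderiv ℝ c (bd k q d) (bw k δ d lam)|)
      ≤ C * (K * ((1 + 2 * c₁) * N δ lam + ‖dz‖) + K * N δ lam + K * N δ lam) := by gcongr
    _ ≤ C * ((3 + 2 * c₁) * K * (N δ lam + ‖dz‖)) := by
        gcongr
        nlinarith [mul_nonneg hK h11, mul_nonneg (mul_nonneg hc₁.le hK) h11]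
    _ = _ := by ring

end Vale.Agent.P273.H188

end
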