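import Vale.Agent.P273.H188.Core1

/-!
# P273, row ASY1-CORE (helper188): the uniform core bounds
-/

noncomputable section

namespace Vale.Agent.P273.H188

open Set Filter H681 H95 H973 H730
open scoped Topology ContDiff

/-- from the chart at infinity to the plane -/
lemma on1_flip {b : C6} {z v : ℂ} (hz : z ≠ 0) (h : On1 true (b, z) v) :
    On1 false (b, z⁻¹) (v * z⁻¹ ^ 3) := by
  obtain ⟨h1, h2⟩ := h
  refine ⟨?_, mul_ne_zero h2 (pow_ne_zero _ (inv_ne_zero hz))⟩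
  have h3 : v ^ 2 = z ^ 6 * sx (rts b) z⁻¹ := by
    rw [h1]
    simp only [pol, if_true]
    exact sw_eq _ hz
  have h4 : pol false (rts b) z⁻¹ = sx (rts b) z⁻¹ := by simp [pol]
  show (v * z⁻¹ ^ 3) ^ 2 = pol false (rts b) z⁻¹
  rw [h4, mul_pow, h3]
  field_simp

lemma eta_flip (O : One) {b : C6} (hb : b ∈ XX) {z v : ℂ} (hz : z ≠ 0) (h : On1 true (b, z) v)
    {ξ : Fin 6 → ℝ} (hξ : IsCl ξ) (β : C6) (dz : ℂ) :
    O.η ξ true (b, z) v (β, dz) = O.η ξ false (b, z⁻¹) (v * z⁻¹ ^ 3) (β, -(dz * z⁻¹ ^ 2)) := by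
  have hz' : z⁻¹ ≠ 0 := inv_ne_zero hz
  have h1 := O.chg ξ (b, z⁻¹) (v * z⁻¹ ^ 3) hξ hb hz' (on1_flip hz h)
  rw [h1]
  have h2 : HasFDerivAt (fun p : E1 => (p.2)⁻¹)
      ((((1 : ℂ →L[ℂ] ℂ).smulRight (-(z⁻¹ ^ 2)⁻¹)).restrictScalars ℝ).comp
        (ContinuousLinearMap.snd ℝ C6 ℂ)) (b, z⁻¹) := by
    have h3 : HasFDerivAt (fun x : ℂ => x⁻¹)
        (((1 : ℂ →L[ℂ] ℂ).smulRight (-(z⁻¹ ^ 2)⁻¹)).restrictScalars ℝ) z⁻¹ :=
      (hasDerivAt_inv hz').hasFDerivAt.restrictScalars ℝ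
    exact HasFDerivAt.comp (g := fun x : ℂ => x⁻¹) (b, z⁻¹) h3 hasFDerivAt_snd
  have h4 : fderiv ℝ (fun p : E1 => ((p.1, (p.2)⁻¹) : E1)) (b, z⁻¹) =
      (ContinuousLinearMap.fst ℝ C6 ℂ).prod
        ((((1 : ℂ →L[ℂ] ℂ).smulRight (-(z⁻¹ ^ 2)⁻¹)).restrictScalars ℝ).comp
        (ContinuousLinearMap.snd ℝ C6 ℂ)) := (hasFDerivAt_fst.prodMk h2).fderiv
  rw [h4]
  have h5 : v * z⁻¹ ^ 3 * z ^ 3 = v := by
    field_simp
  simp only [ContinuousLinearMap.comp_apply, ContinuousLinearMap.prod_apply, inv_inv, h5]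
  congr 1
  refine Prod.ext rfl ?_
  show dz = (ContinuousLinearMap.smulRight (1 : ℂ →L[ℂ] ℂ) (-(z⁻¹ ^ 2)⁻¹)) (-(dz * z⁻¹ ^ 2))
  simp only [ContinuousLinearMap.smulRight_apply, ContinuousLinearMap.one_apply, smul_eq_mul]
  field_simp

/-- the far zone in both charts -/
lemma far_bound {O : One} {A : AA} {c : CO} {b : C6} {R C : ℝ} (h : G2 O A c b R C) (hR : 0 < R)
    (hb : b ∈ XX) {z v : ℂ} (hz : ‖z‖ < R⁻¹) (hv : On1 true (b, z) v) {ξ : Fin 6 → ℝ}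
    (hξ : IsCl ξ) (β : C6) (dz : ℂ) :
    |O.η ξ true (b, z) v (β, dz)| ≤
      C * (‖A ξ b‖ * ‖β‖ + ‖fderiv ℝ (A ξ) b β‖ + |fderiv ℝ (c ξ) b β|) := by
  have key : ∀ {z v : ℂ}, ‖z‖ < R⁻¹ → z ≠ 0 → On1 true (b, z) v → ∀ dz : ℂ,
      |O.η ξ true (b, z) v (β, dz)| ≤
      C * (‖A ξ b‖ * ‖β‖ + ‖fderiv ℝ (A ξ) b β‖ + |fderiv ℝ (c ξ) b β|) := by
    intro z v hz h0 hv dz
    have hx : R < ‖z⁻¹‖ := by
      rw [norm_inv, lt_inv_comm₀ hR (norm_pos_iff.2 h0)]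
      exact hz
    obtain ⟨h1, h2⟩ := h hb _ _ hx (on1_flip h0 hv) ξ hξ
    rw [eta_flip O hb h0 hv hξ]
    have e : (β, -(dz * z⁻¹ ^ 2)) = ((β, 0) : E1) + (0, -(dz * z⁻¹ ^ 2)) := by simp
    rw [e, map_add, h1, add_zero]
    exact h2 β
  by_cases h0 : z = 0
  · subst h0
    obtain ⟨r, hr, g, hg⟩ := O.far b hb
    have h1 : ∀ᶠ w in 𝓝 (0 : ℂ), pol true (rts b) w ≠ 0 := by
      have hc : ContinuousAt (fun w => pol true (rts b) w) 0 := by
        simp only [pol_true]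
        fun_prop
      refine hc.eventually_ne ?_
      rw [pol_true]
      simp
    have h2 : ∀ᶠ w in 𝓝 (0 : ℂ), ‖w‖ < min r R⁻¹ := by
      have := Metric.ball_mem_nhds (0 : ℂ) (lt_min hr (inv_pos.2 hR))
      filter_upwards [this] with w hw
      simpa using hw
    obtain ⟨w, ⟨hw1, hw2⟩, hw3⟩ := (((h1.and h2).filter_mono nhdsWithin_le_nhds).and
      (self_mem_nhdsWithin (s := {(0 : ℂ)}ᶜ) (a := (0 : ℂ)))).exists
    obtain ⟨v', hv'⟩ := IsAlgClosed.exists_pow_nat_eq (pol true (rts b) w) (n := 2) (by norm_num)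
    have hon : On1 true (b, w) v' := ⟨hv', fun h => hw1 (by rw [← hv', h]; simp)⟩
    have k1 := key (lt_of_lt_of_le hw2 (min_le_right _ _)) hw3 hon dz
    have e1 := hg ξ (b, 0) v hξ (by simpa using hr) (by simpa using hr) hv
    have e2 := hg ξ (b, w) v' hξ (by simpa using hr) (lt_of_lt_of_le hw2 (min_le_left _ _)) hon
    have e3 : ∀ a : ℝ, |(if 0 < a then (1 : ℝ) else -1)| = 1 := by
      intro a
      split_ifs <;> simp
    rw [e2] at k1
    rw [e1]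
    simp only [ContinuousLinearMap.smul_apply, ContinuousLinearMap.comp_apply,
      ContinuousLinearMap.coe_fst', smul_eq_mul, abs_mul, e3, one_mul] at k1 ⊢
    exact k1
  · exact key hz h0 hv dz

lemma G1_mono {O : One} {A : AA} {c : CO} {b : C6} {x : ℂ} {C C' : ℝ} (h : G1 O A c b x C)
    (hC : C ≤ C') : G1 O A c b x C' := by
  intro hb v hv ξ hξ β ζ
  exact (h hb v hv ξ hξ β ζ).trans (by gcongr)

lemma G2_mono {O : One} {A : AA} {c : CO} {b : C6} {R R' C C' : ℝ} (h : G2 O A c b R C)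
    (hR : R ≤ R') (hC : C ≤ C') : G2 O A c b R' C' := by
  intro hb x v hx hv ξ hξ
  obtain ⟨h1, h2⟩ := h hb x v (lt_of_le_of_lt hR hx) hv ξ hξ
  exact ⟨h1, fun β => (h2 β).trans (by gcongr)⟩

lemma isCl_alc (k : Fin 5) : IsCl (alc k) := by
  have h1 : ∀ j : Fin 6, alc k j = (if j = k.castSucc then (1 : ℝ) else 0) +
      (if j = k.succ then (1 : ℝ) else 0) := by
    intro j
    unfold alc
    by_cases h : j = k.castSucc
    · have h2 : j ≠ k.succ := by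
        rintro rfl
        have := congrArg Fin.val h
        simp at this
      simp [h, h2, (h ▸ h2 : k.castSucc ≠ k.succ)]
    · simp [h]
  unfold IsCl
  simp only [h1, mul_add, Finset.sum_add_distrib, mul_ite, mul_one, mul_zero, Finset.sum_ite_eq',
    Finset.mem_univ, if_true, Fin.val_castSucc, Fin.val_succ, pow_succ]
  ring

/-- **the core bounds** -/
theorem coreO_of {O : One} {A : AA} {c : CO} (h : GO O A c) (hD : DatO A c) : CoreO O := by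
  intro k q₀ hq₀
  obtain ⟨U, hU, hUD⟩ := hD k q₀ hq₀
  obtain ⟨N, hN, hNU, hNc⟩ := exists_cpt k hq₀ hU
  -- the far zone
  obtain ⟨ε₂, hε₂, R₁, hR₁, hfar⟩ := cpt_bound hNc (P := fun b C => G2 O A c b C C)
    (fun b C C' hb hC => G2_mono hb hC hC) (by
      rintro q ⟨_, hq⟩
      obtain ⟨R, _, C, _, hRC⟩ := h.far k q hq
      exact ⟨max R C, hRC.mono fun b hb => G2_mono hb (le_max_left _ _) (le_max_right _ _)⟩)
  refine ⟨N, hN, R₁ + 1, by positivity, fun c₁ hc₁ R₀ hR₀ => ?_⟩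
  -- the core
  have hK : IsCompact {p : E1 | p.1 ∈ N ∩ H828.XD k ∧ ‖p.2‖ ≤ R₀ ∧
      c₁ / 4 ≤ ‖p.2 - p.1 k.castSucc‖} := by
    have e : {p : E1 | p.1 ∈ N ∩ H828.XD k ∧ ‖p.2‖ ≤ R₀ ∧ c₁ / 4 ≤ ‖p.2 - p.1 k.castSucc‖} =
        ((N ∩ H828.XD k) ×ˢ Metric.closedBall (0 : ℂ) R₀) ∩
        {p : E1 | c₁ / 4 ≤ ‖p.2 - p.1 k.castSucc‖} := by
      ext p
      constructor
      · rintro ⟨h1, h2, h3⟩
        exact ⟨⟨h1, by simpa using h2⟩, h3⟩
      · rintro ⟨⟨h1, h2⟩, h3⟩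
        exact ⟨h1, by simpa using h2, h3⟩
    rw [e]
    refine (hNc.prod (isCompact_closedBall _ _)).inter_right (isClosed_le continuous_const ?_)
    fun_prop
  obtain ⟨ε₁, hε₁, C₁, hC₁, hcore⟩ := cpt_bound hK (P := fun p C => G1 O A c p.1 p.2 C)
    (fun b C C' hb hC => G1_mono hb hC) (by
      rintro ⟨q, x⟩ ⟨⟨_, hq⟩, _, hx⟩
      simp only at hq hx
      by_cases hl : ∀ l, q l ≠ x
      · obtain ⟨C, _, hC⟩ := h.fin k q hq x hl
        exact ⟨C, hC⟩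
      · push Not at hl
        obtain ⟨l, hl⟩ := hl
        have h1 : l ≠ k.castSucc := by
          rintro rfl
          rw [hl, sub_self, norm_zero] at hx
          linarith
        have h2 : l ≠ k.succ := by
          rintro rfl
          rw [← hl, hq.1, sub_self, norm_zero] at hx
          linarith
        refine ⟨0, ?_⟩
        have h3 := h.root k q hq l h1 h2
        rw [hl] at h3
        filter_upwards [h3] with p hp
        intro hb v hv ξ hξ β ζ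
        rw [hp hb v hv ξ hξ]
        simp)
  obtain ⟨M₀, B, hM₀, hB, hdat⟩ := hUD c₁ hc₁
  refine ⟨max M₀ (2 * c₁ / min ε₁ ε₂ + 1), (C₁ + R₁) * (3 + 2 * c₁) * B,
    lt_of_lt_of_le hM₀ (le_max_left _ _), by positivity, ?_⟩
  intro q d hA s z v hz
  have hA' : Adm k U c₁ M₀ q d :=
    ⟨hNU hA.qU, hA.qX, hA.d0, (le_max_left _ _).trans hA.len, hA.mem⟩
  have hy : 0 < yl c₁ d := lt_of_lt_of_le hM₀ hA'.len
  have hd : ‖d‖ < min ε₁ ε₂ := by
    refine norm_d_lt hA.d0 hc₁ (lt_min hε₁ hε₂) ?_ ((le_max_right _ _).trans hA.len)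
    linarith
  have hbq : ‖bd k q d - q‖ ≤ ‖d‖ := norm_bd_sub k hA.qX.1 d
  have key : ∀ ξ, IsCl ξ → ∀ (β : C6) (dz : ℂ), |O.η ξ s (bd k q d, z) v (β, dz)| ≤
      (C₁ + R₁) * (‖A ξ (bd k q d)‖ * (‖β‖ + ‖dz‖) + ‖fderiv ℝ (A ξ) (bd k q d) β‖ +
        |fderiv ℝ (c ξ) (bd k q d) β|) := by
    intro ξ hξ β dz
    obtain ⟨h1, h2⟩ := hz
    cases s
    · simp only [Bool.false_eq_true, if_false] at h1
      have h3 : G1 O A c (bd k q d) z C₁ := by
        refine hcore (q, z) ⟨⟨hA.qU, hA.qX⟩, h1.1, h1.2⟩ (bd k q d, z) ?_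
        rw [Prod.dist_eq, dist_self, dist_eq_norm]
        refine max_lt (lt_of_le_of_lt hbq (lt_of_lt_of_le hd (min_le_left _ _))) hε₁
      refine (h3 hA.mem v h2 ξ hξ β dz).trans ?_
      gcongr
      linarith
    · simp only [if_true] at h1
      have h3 : G2 O A c (bd k q d) R₁ R₁ := by
        refine hfar q ⟨hA.qU, hA.qX⟩ (bd k q d) ?_
        rw [dist_eq_norm]
        exact lt_of_le_of_lt hbq (lt_of_lt_of_le hd (min_le_right _ _))
      have h4 : ‖z‖ < R₁⁻¹ := by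
        refine lt_of_le_of_lt h1 ?_
        rw [inv_lt_inv₀ (by linarith) hR₁]
        linarith
      refine (far_bound h3 hR₁ hA.mem h4 h2 hξ β dz).trans ?_
      have h5 : ‖A ξ (bd k q d)‖ * ‖β‖ ≤ ‖A ξ (bd k q d)‖ * (‖β‖ + ‖dz‖) := by
        gcongr
        linarith [norm_nonneg dz]
      have h6 : R₁ ≤ C₁ + R₁ := by linarith
      gcongr
  have hCC : 0 ≤ C₁ + R₁ := by positivity
  intro δ lam dz ξ hξ
  obtain ⟨hd1, hd2⟩ := hdat q d hA'
  obtain ⟨hd3, hd4⟩ := hd1 ξ hξ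
  have hyi : 0 < (yl c₁ d)⁻¹ := inv_pos.2 hy
  have halc : IsCl (alc k) := isCl_alc k
  refine ⟨?_, fun he => ?_, ?_⟩
  · refine (key ξ hξ (bw k δ d lam) dz).trans ?_
    refine (comb hd3 hc₁ hA.d0 hCC (by positivity) hy δ lam dz ?_).trans (le_of_eq (by ring))
    have := abs_nonneg lam.im
    linarith
  · refine (key ξ hξ (bw k δ d lam) dz).trans ?_
    exact (comb (hd4 he) hc₁ hA.d0 hCC (by positivity) hy δ lam dz le_rfl).trans
      (le_of_eq (by ring))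
  · refine (key (alc k) halc (bw k δ d lam) dz).trans ?_
    exact (comb hd2 hc₁ hA.d0 hCC (by positivity) hy δ lam dz le_rfl).trans
      (le_of_eq (by ring))

/-- zero near the other roots -/
theorem rootO_of {O : One} {A : AA} {c : CO} (h : GO O A c) : RootO O := by
  intro k q₀ hq₀
  have h1 : ∀ l : Fin 6, ∃ r > 0, l ≠ k.castSucc → l ≠ k.succ → ∀ p : E1, dist p (q₀, q₀ l) < r →
      p.1 ∈ XX → ∀ v, On1 false p v → ∀ ξ, IsCl ξ → O.η ξ false p v = 0 := by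
    intro l
    by_cases hl : l ≠ k.castSucc ∧ l ≠ k.succ
    · obtain ⟨r, hr, hp⟩ := Metric.eventually_nhds_iff.1 (h.root k q₀ hq₀ l hl.1 hl.2)
      exact ⟨r, hr, fun _ _ p hd => hp hd⟩
    · exact ⟨1, one_pos, fun a b => absurd ⟨a, b⟩ hl⟩
  choose r hr h2 using h1
  have h3 : ∃ ρ > 0, ∀ l, ρ ≤ r l :=
    ⟨Finset.univ.inf' Finset.univ_nonempty r, (Finset.lt_inf'_iff _).2 fun l _ => hr l,
      fun l => Finset.inf'_le _ (Finset.mem_univ l)⟩
  obtain ⟨ρ, hρ, h4⟩ := h3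
  refine ⟨Metric.ball q₀ (ρ / 2), Metric.ball_mem_nhds _ (by positivity), ρ / 2, by positivity, ?_⟩
  intro q hq hqX d hd hb l hl1 hl2 ξ x v hξ hx hv
  refine h2 l hl1 hl2 (bd k q d, x) ?_ hb v hv ξ hξ
  refine lt_of_lt_of_le ?_ (h4 l)
  rw [Metric.mem_ball, dist_eq_norm] at hq
  rw [Prod.dist_eq, max_lt_iff, dist_eq_norm, dist_eq_norm]
  constructor
  · have h5 := norm_bd_sub k hqX.1 d
    have h6 : bd k q d - q₀ = (bd k q d - q) + (q - q₀) := by ring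
    show ‖bd k q d - q₀‖ < ρ
    rw [h6]
    have := norm_add_le (bd k q d - q) (q - q₀)
    linarith
  · have h5 : ‖(q - q₀) l‖ ≤ ‖q - q₀‖ := norm_le_pi_norm _ _
    have h6 : x - q₀ l = (x - q l) + (q - q₀) l := by
      rw [Pi.sub_apply]
      ring
    show ‖x - q₀ l‖ < ρ
    rw [h6]
    have := norm_add_le (x - q l) ((q - q₀) l)
    linarith

/-- no vertical part near infinity -/
theorem farO_of {O : One} {A : AA} {c : CO} (h : GO O A c) : FarO O := by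
  intro k q₀ hq₀
  obtain ⟨R, hR, C, hC, h1⟩ := h.far k q₀ hq₀
  obtain ⟨r, hr, h2⟩ := Metric.eventually_nhds_iff.1 h1
  refine ⟨Metric.ball q₀ (r / 2), Metric.ball_mem_nhds _ (by positivity), r / 2, by positivity,
    R, hR, ?_⟩
  intro q hq hqX d hd hb ξ x v hξ hx hv w
  have h3 : dist (bd k q d) q₀ < r := by
    rw [Metric.mem_ball, dist_eq_norm] at hq
    rw [dist_eq_norm]
    have h5 := norm_bd_sub k hqX.1 d
    have h6 : bd k q d - q₀ = (bd k q d - q) + (q - q₀) := by ring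
    rw [h6]
    have := norm_add_le (bd k q d - q) (q - q₀)
    linarith
  exact (h2 h3 hb x v hx hv ξ hξ).1 w

end Vale.Agent.P273.H188

end
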