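import Vale.Agent.P273.H188.Dat
import Vale.Agent.P273.H598.Sol
import Vale.Agent.P273.H598.Node2

/-!
# P273, row ASY1-CORE (helper188): bounds of the flat data from the explicit solution of 598
-/

noncomputable section

namespace Vale.Agent.P273.H188

open Set Filter H681 H95 H973 H730
open Vale.Agent.P273.H580 (fl mkA AX cX theStms smooth_fl)

open Vale.Agent.P273.H598
open scoped Topology ContDiff

/-- the explicit solution of 598 near a merged configuration -/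
def NodeSol : Prop := ∀ k : Fin 5, ∀ q₀ ∈ H828.XD k,
  ∃ (D : Sol.Dat (ℂ × C6)) (h : D.Ok ((0 : ℂ), q₀)), D.i0 = k.castSucc ∧ D.i1 = k.succ ∧
    ∀ᶠ p in 𝓝 ((0 : ℂ), q₀), p.1 ≠ 0 → bb k p ∈ XX → ∀ ξ, IsCl ξ →
      fl ξ (bb k p) = Sol.Dat.vs h p (-Real.log ‖p.1‖) (lg (-p.1)).im ξ

lemma neg_mem_Sl {k : Fin 5} {q : C6} {d : ℂ} (h : bd k q d ∈ XX) : -d ∈ H908.Sl := by
  have h1 := h k.castSucc k.succ Fin.castSucc_lt_succ
  have e0 : bd k q d k.castSucc = q k.castSucc - d := H598.bb_zero k d q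
  have e1 : bd k q d k.succ = q k.castSucc + d := H598.bb_one k d q
  rw [e0, e1] at h1
  by_cases hd : d.re = 0
  · left
    have h2 := h1 (by simp [hd])
    simp only [Complex.add_im, Complex.sub_im] at h2
    rw [Complex.neg_im]
    linarith
  · right
    rw [Complex.neg_re]
    exact neg_ne_zero.2 hd

lemma abs_lg_im_le (z : ℂ) : |(lg z).im| ≤ 6 := by
  unfold lg
  rw [Complex.add_im, Complex.log_im]
  have h1 := Complex.neg_pi_lt_arg (-Complex.I * z)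
  have h2 := Complex.arg_le_pi (-Complex.I * z)
  have h3 : ((Real.pi : ℂ) / 2 * Complex.I).im = Real.pi / 2 := by
    have : ((Real.pi : ℂ) / 2 * Complex.I) = ((Real.pi / 2 : ℝ) : ℂ) * Complex.I := by push_cast; ring
    rw [this]
    simp
  rw [h3, abs_le]
  have := Real.pi_lt_four
  have := Real.pi_pos
  constructor <;> linarith

lemma lg_re (z : ℂ) : (lg z).re = Real.log ‖z‖ := by
  unfold lg
  rw [Complex.add_re, Complex.log_re]
  have h3 : ((Real.pi : ℂ) / 2 * Complex.I).re = 0 := by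
    have : ((Real.pi : ℂ) / 2 * Complex.I) = ((Real.pi / 2 : ℝ) : ℂ) * Complex.I := by push_cast; ring
    rw [this]
    simp
  rw [h3, add_zero, norm_mul, norm_neg, Complex.norm_I, one_mul]

/-- the derivative of the logarithm of the half difference -/
lemma hasFDerivAt_lgd {d : ℂ} (hd : -d ∈ H908.Sl) (q : C6) :
    HasFDerivAt (fun p : ℂ × C6 => lg (-p.1))
      ((((1 : ℂ →L[ℂ] ℂ).smulRight (-d)⁻¹).restrictScalars ℝ).comp
        (-(ContinuousLinearMap.fst ℝ ℂ C6))) (d, q) := by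
  have h1 : HasFDerivAt lg (((1 : ℂ →L[ℂ] ℂ).smulRight (-d)⁻¹).restrictScalars ℝ) (-d) :=
    (H598.hasDerivAt_lg hd).hasFDerivAt.restrictScalars ℝ
  have h2 : HasFDerivAt (fun p : ℂ × C6 => -p.1) (-(ContinuousLinearMap.fst ℝ ℂ C6)) (d, q) :=
    hasFDerivAt_fst.neg
  exact HasFDerivAt.comp (g := lg) (f := fun p : ℂ × C6 => -p.1) (d, q) h1 h2

/-- the linear map `bb` -/
def bbL (k : Fin 5) : ℂ × C6 →L[ℝ] C6 :=
  LinearMap.toContinuousLinearMap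
    { toFun := bb k
      map_add' := fun p r => by
        funext j
        simp only [bb, H828.pr, Pi.add_apply, Prod.fst_add, Prod.snd_add]
        split_ifs <;> ring
      map_smul' := fun c p => by
        funext j
        simp only [bb, H828.pr, Pi.smul_apply, Prod.smul_fst, Prod.smul_snd, RingHom.id_apply]
        split_ifs
        · rw [smul_sub]
        · rw [smul_add]
        · rfl }

lemma bbL_apply (k : Fin 5) (p : ℂ × C6) : bbL k p = bb k p := rfl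

/-- the derivative of the flat data in the direction `bw k δ d lam` -/
lemma fderiv_fl {k : Fin 5} {q : C6} {d : ℂ} (hb : bd k q d ∈ XX) {ξ : Fin 6 → ℝ}
    {F : ℂ × C6 → ℂ × ℂ × ℝ} {F' : ℂ × C6 →L[ℝ] (ℂ × ℂ × ℝ)} (hF : HasFDerivAt F F' (d, q))
    (he : ∀ᶠ p in 𝓝 (d, q), fl ξ (bb k p) = F p) (δ : C6) (lam : ℂ) :
    fderiv ℝ (fl ξ) (bd k q d) (bw k δ d lam) = F' (d * lam, δ) := by
  have h1 : HasFDerivAt (fl ξ) (fderiv ℝ (fl ξ) (bd k q d)) (bd k q d) :=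
    ((smooth_fl theStms ξ hb).differentiableAt (by simp)).hasFDerivAt
  have h2 : HasFDerivAt (fun p => fl ξ (bbL k p))
      ((fderiv ℝ (fl ξ) (bd k q d)).comp (bbL k)) (d, q) :=
    HasFDerivAt.comp (g := fl ξ) (f := fun p => bbL k p) (d, q) h1 (bbL k).hasFDerivAt
  have h3 : HasFDerivAt F ((fderiv ℝ (fl ξ) (bd k q d)).comp (bbL k)) (d, q) :=
    h2.congr_of_eventuallyEq (he.mono fun p hp => hp.symm)
  rw [hF.unique h3]
  rfl

lemma norm_bwp_le (d lam : ℂ) (δ : C6) : ‖((d * lam, δ) : ℂ × C6)‖ ≤ ‖δ‖ + ‖d‖ * ‖lam‖ := by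
  rw [Prod.norm_def, norm_mul]
  have := norm_nonneg δ
  have : 0 ≤ ‖d‖ * ‖lam‖ := by positivity
  exact max_le (by linarith) (by linarith)

/-- **the bounds** -/
theorem flB_of (hN : NodeSol) : FlB := by
  intro k q₀ hq₀
  obtain ⟨D, h, e0, e1, hS⟩ := hN k q₀ hq₀
  obtain ⟨A, hA⟩ := Sol.Dat.exists_Bds h
  obtain ⟨r, hr, hP⟩ := Metric.eventually_nhds_iff.1
    (hA.and (eventually_eventually_nhds.2 hS))
  have hA1 : 1 ≤ A := (hP (y := ((0 : ℂ), q₀)) (by simpa using hr)).1.A1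
  refine ⟨Metric.ball q₀ r, Metric.ball_mem_nhds _ hr, max (2 * A) (1 - Real.log r), 40 * A ^ 3,
    lt_of_lt_of_le (by linarith) (le_max_left _ _), by positivity, ?_⟩
  intro q hq hqX d hd hm hb
  set M : ℝ := -Real.log ‖d‖ with hM
  have hd0 : 0 < ‖d‖ := norm_pos_iff.2 hd
  have hM2 : 2 * A ≤ M := (le_max_left _ _).trans hm
  have hM3 : 1 - Real.log r ≤ M := (le_max_right _ _).trans hm
  have hM0 : 0 < M := by linarith
  have hM1 : 1 ≤ M := by linarith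
  have hdr : ‖d‖ < r := by
    rw [← Real.log_lt_log_iff hd0 hr]
    linarith
  obtain ⟨hB, hE⟩ := hP (y := (d, q)) (by
    rw [Prod.dist_eq]
    refine max_lt ?_ hq
    rw [dist_eq_norm, sub_zero]
    exact hdr)
  have hSl := neg_mem_Sl hb
  have hbb : bb k (d, q) = bd k q d := rfl
  -- the identity near the point
  have hev : ∀ ξ, IsCl ξ → ∀ᶠ p in 𝓝 (d, q), fl ξ (bb k p) =
      Sol.Dat.vs h p (-Real.log ‖p.1‖) (lg (-p.1)).im ξ := by
    intro ξ hξ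
    have h1 : ∀ᶠ p : ℂ × C6 in 𝓝 (d, q), p.1 ≠ 0 := continuousAt_fst.eventually_ne hd
    have h2 : ∀ᶠ p : ℂ × C6 in 𝓝 (d, q), bb k p ∈ XX :=
      (bbL k).continuous.continuousAt.eventually (Vale.Agent.P273.H580.isOpen_XO.mem_nhds hb)
    filter_upwards [hE, h1, h2] with p k1 k2 k3 using k1 k2 k3 ξ hξ
  -- the derivatives of the logarithms
  have dL := hasFDerivAt_lgd hSl q
  set L' := (((1 : ℂ →L[ℂ] ℂ).smulRight (-d)⁻¹).restrictScalars ℝ).comp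
        (-(ContinuousLinearMap.fst ℝ ℂ C6)) with hL'
  have dM : HasFDerivAt (fun p : ℂ × C6 => -Real.log ‖p.1‖) (-(Complex.reCLM.comp L')) (d, q) := by
    have h1 := (Complex.reCLM.hasFDerivAt.comp (d, q) dL).neg
    refine h1.congr_of_eventuallyEq (Eventually.of_forall fun p => ?_)
    show -Real.log ‖p.1‖ = -(lg (-p.1)).re
    rw [lg_re, norm_neg]
  have dφ : HasFDerivAt (fun p : ℂ × C6 => (lg (-p.1)).im) (Complex.imCLM.comp L') (d, q) :=
    Complex.imCLM.hasFDerivAt.comp (d, q) dL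
  have hLv : ∀ (δ : C6) (lam : ℂ), L' (d * lam, δ) = lam := by
    intro δ lam
    have : L' (d * lam, δ) = -(d * lam) * (-d)⁻¹ := by
      simp [hL']
    rw [this]
    field_simp
  have hMi : 0 < M⁻¹ := inv_pos.2 hM0
  have hMi1 : M⁻¹ ≤ 1 := inv_le_one_of_one_le₀ hM1
  have hA3 : 1 ≤ A ^ 3 := one_le_pow₀ hA1
  have hA23 : A ^ 2 ≤ A ^ 3 := pow_le_pow_right₀ hA1 (by norm_num)
  have hA13 : A ≤ A ^ 3 := by
    have := pow_le_pow_right₀ hA1 (show 1 ≤ 3 by norm_num)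
    simpa using this
  have hA0 : 0 < A := by linarith
  refine ⟨fun ξ hξ => ?_, ?_⟩
  · have hz := hB.sz ξ
    obtain ⟨h1, v', h2, h3⟩ := Sol.Dat.hasFDerivAt_vs (p := fun t => t) (t := (d, q)) hB hz
      (M := fun p : ℂ × C6 => -Real.log ‖p.1‖) (φ := fun p : ℂ × C6 => (lg (-p.1)).im)
      hM2 (abs_lg_im_le _) (hasFDerivAt_id _) dM dφ
    have hβ : |ξ D.i1 - ξ D.i0| ≤ 2 * ‖ξ‖ := by
      have k1 := norm_le_pi_norm ξ D.i1
      have k2 := norm_le_pi_norm ξ D.i0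
      rw [Real.norm_eq_abs] at k1 k2
      have := abs_sub (ξ D.i1) (ξ D.i0)
      linarith
    have hξ0 : 0 ≤ ‖ξ‖ := norm_nonneg _
    refine ⟨?_, fun δ lam => ?_⟩
    · rw [← hbb, (hev ξ hξ).self_of_nhds]
      refine h1.trans ?_
      simp only [← hM]
      rw [div_eq_mul_inv]
      calc A * ‖ξ‖ + A * (2 * (A * ‖ξ‖ + ‖ξ‖ + 2 * |ξ D.i1 - ξ D.i0|) * M⁻¹)
          ≤ A * ‖ξ‖ + A * (2 * (A * ‖ξ‖ + ‖ξ‖ + 2 * (2 * ‖ξ‖)) * 1) := by gcongr
        _ = (11 * A + 2 * A ^ 2) * ‖ξ‖ := by ring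
        _ ≤ 40 * A ^ 3 * ‖ξ‖ := by
          refine mul_le_mul_of_nonneg_right ?_ hξ0
          nlinarith
    · rw [fderiv_fl hb h2 (hev ξ hξ)]
      refine (h3 _).trans ?_
      set n := ‖((d * lam, δ) : ℂ × C6)‖ with hn
      have hn0 : 0 ≤ n := norm_nonneg _
      have hnle : n ≤ ‖δ‖ + ‖d‖ * ‖lam‖ := norm_bwp_le d lam δ
      have m1 : |(-(Complex.reCLM.comp L')) (d * lam, δ)| ≤ ‖lam‖ := by
        show |-(L' (d * lam, δ)).re| ≤ _
        rw [hLv, abs_neg]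
        exact Complex.abs_re_le_norm _
      have m2 : |(Complex.imCLM.comp L') (d * lam, δ)| ≤ ‖lam‖ := by
        show |(L' (d * lam, δ)).im| ≤ _
        rw [hLv]
        exact Complex.abs_im_le_norm _
      have hid : (ContinuousLinearMap.id ℝ (ℂ × C6)) (d * lam, δ) = (d * lam, δ) := rfl
      rw [hid, ← hn]
      simp only [← hM, div_eq_mul_inv]
      have hMM : (M ^ 2)⁻¹ ≤ M⁻¹ := by
        rw [inv_le_inv₀ (by positivity) hM0]
        nlinarith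
      have hMM1 : (M ^ 2)⁻¹ ≤ 1 := hMM.trans hMi1
      have hl0 : 0 ≤ ‖lam‖ := norm_nonneg _
      calc A * ‖ξ‖ * n + A * (2 * (A * ‖ξ‖ + ‖ξ‖ + 2 * |ξ D.i1 - ξ D.i0|) * M⁻¹) * n +
            A * (2 * (A * ‖ξ‖ * n + |ξ D.i1 - ξ D.i0| * |(Complex.imCLM.comp L') (d * lam, δ)|) *
              M⁻¹ + 4 * (A * ‖ξ‖ + ‖ξ‖ + 2 * |ξ D.i1 - ξ D.i0|) *
              (|(-(Complex.reCLM.comp L')) (d * lam, δ)| + A * n) * (M ^ 2)⁻¹)
          ≤ A * ‖ξ‖ * n + A * (2 * (A * ‖ξ‖ + ‖ξ‖ + 2 * (2 * ‖ξ‖)) * 1) * n +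
            A * (2 * (A * ‖ξ‖ * n * 1 + 2 * ‖ξ‖ * ‖lam‖ * M⁻¹) +
              4 * (A * ‖ξ‖ + ‖ξ‖ + 2 * (2 * ‖ξ‖)) * (‖lam‖ * M⁻¹ + A * n * 1)) := by
            have t1 : A * (2 * (A * ‖ξ‖ + ‖ξ‖ + 2 * |ξ D.i1 - ξ D.i0|) * M⁻¹) * n ≤
                A * (2 * (A * ‖ξ‖ + ‖ξ‖ + 2 * (2 * ‖ξ‖)) * 1) * n := by gcongr
            have t2 : 2 * (A * ‖ξ‖ * n + |ξ D.i1 - ξ D.i0| *
                |(Complex.imCLM.comp L') (d * lam, δ)|) * M⁻¹ ≤
                2 * (A * ‖ξ‖ * n * 1 + 2 * ‖ξ‖ * ‖lam‖ * M⁻¹) := by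
              have s1 : A * ‖ξ‖ * n * M⁻¹ ≤ A * ‖ξ‖ * n * 1 := by gcongr
              have s2 : |ξ D.i1 - ξ D.i0| * |(Complex.imCLM.comp L') (d * lam, δ)| * M⁻¹ ≤
                2 * ‖ξ‖ * ‖lam‖ * M⁻¹ := by gcongr
              linarith
            have t3 : 4 * (A * ‖ξ‖ + ‖ξ‖ + 2 * |ξ D.i1 - ξ D.i0|) *
                (|(-(Complex.reCLM.comp L')) (d * lam, δ)| + A * n) * (M ^ 2)⁻¹ ≤
                4 * (A * ‖ξ‖ + ‖ξ‖ + 2 * (2 * ‖ξ‖)) * (‖lam‖ * M⁻¹ + A * n * 1) := by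
              rw [mul_assoc (4 * (A * ‖ξ‖ + ‖ξ‖ + 2 * |ξ D.i1 - ξ D.i0|))]
              have s1 : (|(-(Complex.reCLM.comp L')) (d * lam, δ)| + A * n) * (M ^ 2)⁻¹ ≤
                  ‖lam‖ * M⁻¹ + A * n * 1 := by
                rw [add_mul]
                gcongr
              gcongr
            have t4 := mul_le_mul_of_nonneg_left (add_le_add t2 t3) hA0.le
            linarith
        _ = ‖ξ‖ * ((11 * A + 24 * A ^ 2 + 4 * A ^ 3) * n +
              (24 * A + 4 * A ^ 2) * (‖lam‖ * M⁻¹)) := by ring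
        _ ≤ ‖ξ‖ * (40 * A ^ 3 * (‖δ‖ + ‖d‖ * ‖lam‖) + 40 * A ^ 3 * (‖lam‖ * M⁻¹)) := by
            have s1 : 11 * A + 24 * A ^ 2 + 4 * A ^ 3 ≤ 40 * A ^ 3 := by linarith
            have s2 : 24 * A + 4 * A ^ 2 ≤ 40 * A ^ 3 := by linarith
            gcongr
        _ = _ := by ring
  · have hξ : IsCl (alc k) := isCl_alc' k
    have a0 : alc k D.i0 = 1 := by
      rw [e0]
      simp [alc]
    have a1 : alc k D.i1 = 1 := by
      rw [e1]
      simp [alc]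
    have a2 : ∀ j, j ≠ D.i0 → j ≠ D.i1 → alc k j = 0 := by
      intro j h0 h1
      rw [e0] at h0
      rw [e1] at h1
      simp [alc, h0, h1]
    have hz := hB.sz_alc a0 a1 a2
    obtain ⟨h1, v', h2, h3⟩ := Sol.Dat.hasFDerivAt_vs (p := fun t => t) (t := (d, q)) hB hz
      (M := fun p : ℂ × C6 => -Real.log ‖p.1‖) (φ := fun p : ℂ × C6 => (lg (-p.1)).im)
      hM2 (abs_lg_im_le _) (hasFDerivAt_id _) dM dφ
    refine ⟨?_, fun δ lam => ?_⟩
    · rw [← hbb, (hev _ hξ).self_of_nhds]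
      refine h1.trans ?_
      simp only [← hM]
      rw [div_eq_mul_inv]
      calc A * 0 + A * (2 * (A * 0 + 1 + 2 * 0) * M⁻¹) = 2 * A * M⁻¹ := by ring
        _ ≤ 40 * A ^ 3 * M⁻¹ := by
          refine mul_le_mul_of_nonneg_right ?_ hMi.le
          linarith
    · rw [fderiv_fl hb h2 (hev _ hξ)]
      refine (h3 _).trans ?_
      set n := ‖((d * lam, δ) : ℂ × C6)‖ with hn
      have hn0 : 0 ≤ n := norm_nonneg _
      have hnle : n ≤ ‖δ‖ + ‖d‖ * ‖lam‖ := norm_bwp_le d lam δ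
      have m1 : |(-(Complex.reCLM.comp L')) (d * lam, δ)| ≤ ‖lam‖ := by
        show |-(L' (d * lam, δ)).re| ≤ _
        rw [hLv, abs_neg]
        exact Complex.abs_re_le_norm _
      have hid : (ContinuousLinearMap.id ℝ (ℂ × C6)) (d * lam, δ) = (d * lam, δ) := rfl
      rw [hid, ← hn]
      simp only [← hM, div_eq_mul_inv]
      have hMM : (M ^ 2)⁻¹ = M⁻¹ ^ 2 := by rw [inv_pow]
      have hMM2 : M⁻¹ ^ 2 ≤ M⁻¹ := by nlinarith
      have hl0 : 0 ≤ ‖lam‖ := norm_nonneg _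
      calc A * 0 * n + A * (2 * (A * 0 + 1 + 2 * 0) * M⁻¹) * n +
            A * (2 * (A * 0 * n + 0 * |(Complex.imCLM.comp L') (d * lam, δ)|) *
              M⁻¹ + 4 * (A * 0 + 1 + 2 * 0) *
              (|(-(Complex.reCLM.comp L')) (d * lam, δ)| + A * n) * (M ^ 2)⁻¹)
          = 2 * A * (n * M⁻¹) + 4 * A * (|(-(Complex.reCLM.comp L')) (d * lam, δ)| * M⁻¹ ^ 2) +
            4 * A ^ 2 * (n * M⁻¹ ^ 2) := by rw [hMM]; ring
        _ ≤ 2 * A * (n * M⁻¹) + 4 * A * (‖lam‖ * M⁻¹ ^ 2) + 4 * A ^ 2 * (n * M⁻¹) := by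
            gcongr
        _ = (2 * A + 4 * A ^ 2) * (n * M⁻¹) + 4 * A * (‖lam‖ * M⁻¹ ^ 2) := by ring
        _ ≤ 40 * A ^ 3 * ((‖δ‖ + ‖d‖ * ‖lam‖) * M⁻¹) + 40 * A ^ 3 * (‖lam‖ * M⁻¹ ^ 2) := by
            have s1 : 2 * A + 4 * A ^ 2 ≤ 40 * A ^ 3 := by linarith
            have s2 : 4 * A ≤ 40 * A ^ 3 := by linarith
            gcongr
        _ = _ := by ring

end Vale.Agent.P273.H188

end
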