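import Vale.Agent.P273.H188.Core2
import Vale.Agent.P273.H188.Dat2
import Vale.Agent.P273.H473.CoreGO

/-!
# P273, row ASY1-CORE (helper188): the core bounds of `theOne`
-/

noncomputable section

namespace Vale.Agent.P273.H188

open H730 Vale.Agent.P273.H580

/-- **the core bounds of `theOne`**, from the explicit solution near merged configurations -/
theorem coreO_theOne_of (h : NodeSol) : CoreO theOne := coreO_of H473.CoreG.go (datO_of (flB_of h))

end Vale.Agent.P273.H188

end
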