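import Vale.Agent.P273.H188.Dat2
import Vale.Agent.P273.H401.Core0

/-!
# P273, row ASY1-CORE (helper188): the base data of 401 from the data bounds
-/

noncomputable section

namespace Vale.Agent.P273.H188

open Set Filter H681 H95 H973 H730
open Vale.Agent.P273.H580 (AX cX)
open scoped Topology ContDiff

/-- the same bounds in the form of 401 -/
theorem baseO_of {A : AA} {c : CO} (h : DatO A c) : H401.BaseO A c := by
  intro k q₀ hq₀
  obtain ⟨U, hU, hD⟩ := h k q₀ hq₀
  refine ⟨U, hU, fun cc hcc => ?_⟩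
  obtain ⟨M₀, B, hM, hB, h1⟩ := hD cc hcc
  refine ⟨M₀, B, hM, hB, fun q d hA δ lam ξ hξ => ?_⟩
  obtain ⟨h2, h3, h4⟩ := h1 q d hA
  obtain ⟨⟨h5, h6⟩, h7⟩ := h2 ξ hξ
  exact ⟨⟨h5, (h6 δ lam).1, (h6 δ lam).2⟩, fun he => (h7 he).2 δ lam, h3, (h4 δ lam).1,
    (h4 δ lam).2⟩

/-- **the base data of the flat family, from the explicit solution** -/
theorem baseO_of_node (h : NodeSol) : H401.BaseO AX cX := baseO_of (datO_of (flB_of h))

end Vale.Agent.P273.H188

end
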