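import Vale.Agent.P273.H188.Core3
import Vale.Agent.P273.H188.Dat3
import Vale.Agent.P273.H598.Node3
import Vale.Agent.P273.H379.NodeE

/-!
# P273, row ASY1-CORE (helper188): the core bounds of `theOne`, without hypotheses
-/

noncomputable section

namespace Vale.Agent.P273.H188

open Set Filter H681 H95 H973 H730
open Vale.Agent.P273.H580 (fl AX cX theStms)
open Vale.Agent.P273.H598
open scoped Topology ContDiff

/-- 379's non-degeneracy in the form of 598 -/
theorem eReg : EReg := by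
  intro i q hq v h1 hj
  obtain ⟨k0, k1, k2⟩ := H379.node_nondeg hq h1 hj
  exact Prod.ext k0 (Prod.ext k1 k2)

/-- **the explicit solution near merged configurations** -/
theorem nodeSol : NodeSol := by
  intro k q₀ hq₀
  obtain ⟨V, ρ, h, hV⟩ := exists_NB2 hq₀
  have hρ := h.pos
  have hok := DN_ok eReg h hV hq₀
  refine ⟨DN k ρ, DN_ok eReg h hV hq₀, rfl, rfl, ?_⟩
  obtain ⟨A, hA⟩ := Sol.Dat.exists_Bds (DN_ok eReg h hV hq₀)
  have h1 : ∀ᶠ p : ℂ × C6 in 𝓝 ((0 : ℂ), q₀), p.2 ∈ V :=
    continuousAt_snd.eventually_mem (h.op.mem_nhds hV)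
  have h2 : ∀ᶠ p : ℂ × C6 in 𝓝 ((0 : ℂ), q₀), ‖p.1‖ < min (ρ / 2) (Real.exp (-(A + 1))) := by
    have hc : ContinuousAt (fun p : ℂ × C6 => ‖p.1‖) ((0 : ℂ), q₀) := by fun_prop
    refine hc.eventually (gt_mem_nhds ?_)
    simp only [norm_zero]
    exact lt_min (by positivity) (Real.exp_pos _)
  filter_upwards [hA, h1, h2] with p k1 k2 k3 hp0 hb ξ hξ
  have hn : 0 < ‖p.1‖ := norm_pos_iff.2 hp0
  have hlog : A + 1 < -Real.log ‖p.1‖ := by
    have := (Real.log_lt_log_iff hn (Real.exp_pos _)).2 (lt_of_lt_of_le k3 (min_le_right _ _))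
    rw [Real.log_exp] at this
    linarith
  have hmu : |Sol.Dat.mu (DN_ok eReg h hV hq₀) p| ≤ A := k1.m.2.1
  have hM : -Real.log ‖p.1‖ - Sol.Dat.mu (DN_ok eReg h hV hq₀) p ≠ 0 := by
    have := (abs_le.1 hmu).2
    have h5 : 0 < -Real.log ‖p.1‖ - Sol.Dat.mu (DN_ok eReg h hV hq₀) p := by linarith
    exact h5.ne'
  exact (fl_eq eReg h hV hq₀ (q := p.2) (d := p.1) k2 (lt_of_lt_of_le k3 (min_le_left _ _)) hb
    k1.left hM hξ).1

/-- **the size of the flat data near the divisor** -/
theorem flB : FlB := flB_of nodeSol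

/-- **the size of the flat data near the divisor** -/
theorem datO : DatO AX cX := datO_of flB

/-- **the same, in the form of 401** -/
theorem baseO : H401.BaseO AX cX := baseO_of datO

/-- **the core bounds of `theOne`** -/
theorem coreO : CoreO H580.theOne := coreO_of H473.CoreG.go datO

end Vale.Agent.P273.H188

end
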