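import Vale.Agent.P273.H188.Core1
import Vale.Agent.P273.H580.TheStms

/-!
# P273, row ASY1-CORE (helper188): the size of the flat data, from bounds of the solution of the
one-node system
-/

noncomputable section

namespace Vale.Agent.P273.H188

open Set Filter H681 H95 H973 H730
open Vale.Agent.P273.H580 (fl mkA AX cX theStms smooth_fl)
open scoped Topology ContDiff

/-- **bounds of the solution near the divisor** (`-log |d|` = half of the length of the neck) -/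
def FlB : Prop := ∀ k : Fin 5, ∀ q₀ ∈ H828.XD k, ∃ U ∈ 𝓝 q₀, ∃ m A : ℝ, 0 < m ∧ 0 < A ∧
  ∀ q ∈ U, q ∈ H828.XD k → ∀ d : ℂ, d ≠ 0 → m ≤ -Real.log ‖d‖ → bd k q d ∈ XX →
    (∀ ξ, IsCl ξ → ‖fl ξ (bd k q d)‖ ≤ A * ‖ξ‖ ∧ ∀ (δ : C6) (lam : ℂ),
      ‖fderiv ℝ (fl ξ) (bd k q d) (bw k δ d lam)‖ ≤
        A * ‖ξ‖ * (‖δ‖ + ‖d‖ * ‖lam‖ + ‖lam‖ * (-Real.log ‖d‖)⁻¹)) ∧
    ‖fl (alc k) (bd k q d)‖ ≤ A * (-Real.log ‖d‖)⁻¹ ∧ ∀ (δ : C6) (lam : ℂ),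
      ‖fderiv ℝ (fl (alc k)) (bd k q d) (bw k δ d lam)‖ ≤
        A * ((‖δ‖ + ‖d‖ * ‖lam‖) * (-Real.log ‖d‖)⁻¹ + ‖lam‖ * ((-Real.log ‖d‖)⁻¹) ^ 2)

lemma isCl_alc' (k : Fin 5) : IsCl (alc k) := by
  have h1 : ∀ j : Fin 6, alc k j = (if j = k.castSucc then (1 : ℝ) else 0) +
      (if j = k.succ then (1 : ℝ) else 0) := by
    intro j
    unfold alc
    by_cases h : j = k.castSucc
    · have h2 : j ≠ k.succ := by
        rintro rfl
        have := congrArg Fin.val h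
        simp at this
      simp [h, (h ▸ h2 : k.castSucc ≠ k.succ)]
    · simp [h]
  unfold IsCl
  simp only [h1, mul_add, Finset.sum_add_distrib, mul_ite, mul_one, mul_zero, Finset.sum_ite_eq',
    Finset.mem_univ, if_true, Fin.val_castSucc, Fin.val_succ, pow_succ]
  ring

lemma db_of {ξ : Fin 6 → ℝ} {k : Fin 5} {q : C6} {d : ℂ}
    (hb : bd k q d ∈ XX) {K : ℝ} {N : C6 → ℂ → ℝ} (h1 : ‖fl ξ (bd k q d)‖ ≤ K)
    (h2 : ∀ (δ : C6) (lam : ℂ), ‖fderiv ℝ (fl ξ) (bd k q d) (bw k δ d lam)‖ ≤ K * N δ lam) :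
    DB (AX ξ) (cX ξ) k q d ((‖mkA‖ + 1) * K) N := by
  have hs : HasFDerivAt (fl ξ) (fderiv ℝ (fl ξ) (bd k q d)) (bd k q d) :=
    ((smooth_fl theStms ξ hb).differentiableAt (by simp)).hasFDerivAt
  have hK : 0 ≤ K := (norm_nonneg _).trans h1
  have hA : HasFDerivAt (AX ξ) (mkA.comp (fderiv ℝ (fl ξ) (bd k q d))) (bd k q d) :=
    mkA.hasFDerivAt.comp (bd k q d) hs
  have hc : HasFDerivAt (cX ξ) (((ContinuousLinearMap.snd ℝ ℂ ℝ).comp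
      (ContinuousLinearMap.snd ℝ ℂ (ℂ × ℝ))).comp (fderiv ℝ (fl ξ) (bd k q d))) (bd k q d) :=
    ((ContinuousLinearMap.snd ℝ ℂ ℝ).comp
      (ContinuousLinearMap.snd ℝ ℂ (ℂ × ℝ))).hasFDerivAt.comp (bd k q d) hs
  refine ⟨?_, fun δ lam => ⟨?_, ?_⟩⟩
  · refine (mkA.le_opNorm _).trans ?_
    have := norm_nonneg mkA
    nlinarith [norm_nonneg (fl ξ (bd k q d))]
  · rw [hA.fderiv]
    refine (mkA.le_opNorm _).trans ?_
    have h3 := h2 δ lam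
    have h4 := norm_nonneg mkA
    have h5 := norm_nonneg (fderiv ℝ (fl ξ) (bd k q d) (bw k δ d lam))
    calc ‖mkA‖ * ‖fderiv ℝ (fl ξ) (bd k q d) (bw k δ d lam)‖
        ≤ (‖mkA‖ + 1) * (K * N δ lam) := by nlinarith
      _ = _ := by ring
  · rw [hc.fderiv]
    have h3 := h2 δ lam
    have h4 := norm_nonneg mkA
    have h5 := norm_nonneg (fderiv ℝ (fl ξ) (bd k q d) (bw k δ d lam))
    have h6 : |(fderiv ℝ (fl ξ) (bd k q d) (bw k δ d lam)).2.2| ≤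
        ‖fderiv ℝ (fl ξ) (bd k q d) (bw k δ d lam)‖ := by
      rw [← Real.norm_eq_abs]
      exact (norm_snd_le _).trans (norm_snd_le _)
    show |(fderiv ℝ (fl ξ) (bd k q d) (bw k δ d lam)).2.2| ≤ _
    calc |(fderiv ℝ (fl ξ) (bd k q d) (bw k δ d lam)).2.2|
        ≤ (‖mkA‖ + 1) * (K * N δ lam) := by nlinarith
      _ = _ := by ring

lemma DB.mono {A : C6 → (ℂ × ℂ →L[ℝ] ℝ)} {c : C6 → ℝ} {k : Fin 5} {q : C6} {d : ℂ}
    {K K' : ℝ} {N N' : C6 → ℂ → ℝ} (h : DB A c k q d K N) (hK : K ≤ K')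
    (hN : ∀ δ lam, K * N δ lam ≤ K' * N' δ lam) : DB A c k q d K' N' :=
  ⟨h.1.trans hK, fun δ lam => ⟨(h.2 δ lam).1.trans (hN δ lam), (h.2 δ lam).2.trans (hN δ lam)⟩⟩

/-- **the data bounds** -/
theorem datO_of (h : FlB) : DatO AX cX := by
  intro k q₀ hq₀
  obtain ⟨U, hU, m, A, hm, hA, hF⟩ := h k q₀ hq₀
  refine ⟨U, hU, fun c₁ hc₁ => ?_⟩
  set κ : ℝ := ‖mkA‖ + 1 with hκ
  have hκ1 : 1 ≤ κ := by have := norm_nonneg mkA; linarith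
  have hκ0 : 0 < κ := by linarith
  refine ⟨max 1 (2 * m + 4 * |Real.log c₁|), κ * (A * (20 + 8 * c₁)),
    lt_of_lt_of_le one_pos (le_max_left _ _), by positivity, ?_⟩
  intro q d hAd
  have hy1 : 1 ≤ yl c₁ d := (le_max_left _ _).trans hAd.len
  have hy2 : 2 * m + 4 * |Real.log c₁| ≤ yl c₁ d := (le_max_right _ _).trans hAd.len
  have hd0 : 0 < ‖d‖ := norm_pos_iff.2 hAd.d0
  have hyl : yl c₁ d = 2 * (Real.log c₁ + -Real.log ‖d‖) := by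
    unfold yl
    rw [Real.log_div hc₁.ne' hd0.ne']
    ring
  set M : ℝ := -Real.log ‖d‖ with hM
  have hab := abs_le.1 (le_refl |Real.log c₁|)
  have hy0 : 0 < yl c₁ d := by linarith
  have hMy : yl c₁ d / 4 ≤ M := by linarith [hab.1, hab.2]
  have hMm : m ≤ M := by linarith [hab.1, hab.2]
  have hM0 : 0 < M := by linarith
  set t : ℝ := (yl c₁ d)⁻¹ with ht
  have ht0 : 0 < t := inv_pos.2 hy0
  have ht1 : t ≤ 1 := inv_le_one_of_one_le₀ hy1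
  have hMt : M⁻¹ ≤ 4 * t := by
    rw [inv_le_comm₀ hM0 (by positivity), mul_inv, ht, inv_inv]
    linarith
  have hMi : 0 < M⁻¹ := inv_pos.2 hM0
  have hdt : ‖d‖ ≤ 2 * c₁ * t := norm_d_le hAd.d0 hc₁ hy0
  obtain ⟨h1, h2, h3⟩ := hF q hAd.qU hAd.qX d hAd.d0 hMm hAd.mem
  have key : ∀ ξ, IsCl ξ → DB (AX ξ) (cX ξ) k q d (κ * (A * (20 + 8 * c₁)) * ‖ξ‖)
      (fun δ lam => ‖δ‖ + t * ‖lam‖) := by
    intro ξ hξ
    obtain ⟨h4, h5⟩ := h1 ξ hξ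
    have h6 : DB (AX ξ) (cX ξ) k q d (κ * (A * (20 + 8 * c₁) * ‖ξ‖))
        (fun δ lam => ‖δ‖ + t * ‖lam‖) := by
      refine db_of hAd.mem ?_ fun δ lam => ?_
      · refine h4.trans ?_
        have : A ≤ A * (20 + 8 * c₁) := by nlinarith
        gcongr
      · refine (h5 δ lam).trans ?_
        have h7 : ‖d‖ * ‖lam‖ ≤ 2 * c₁ * t * ‖lam‖ := by gcongr
        have h8 : ‖lam‖ * M⁻¹ ≤ ‖lam‖ * (4 * t) := by gcongr
        have h9 : ‖δ‖ + ‖d‖ * ‖lam‖ + ‖lam‖ * M⁻¹ ≤ (20 + 8 * c₁) * (‖δ‖ + t * ‖lam‖) := by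
          have h10 : 0 ≤ t * ‖lam‖ := by positivity
          have h11 : 0 ≤ c₁ * (t * ‖lam‖) := by positivity
          have h12 : 0 ≤ c₁ * ‖δ‖ := by positivity
          nlinarith [norm_nonneg δ]
        calc A * ‖ξ‖ * (‖δ‖ + ‖d‖ * ‖lam‖ + ‖lam‖ * M⁻¹)
            ≤ A * ‖ξ‖ * ((20 + 8 * c₁) * (‖δ‖ + t * ‖lam‖)) := by gcongr
          _ = _ := by ring
    exact h6.mono (le_of_eq (by ring)) fun δ lam => le_of_eq (by ring)
  refine ⟨fun ξ hξ => ⟨(key ξ hξ).mono le_rfl fun δ lam => ?_, fun _ => key ξ hξ⟩, ?_⟩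
  · refine mul_le_mul_of_nonneg_left ?_ (by positivity)
    show ‖δ‖ + t * ‖lam‖ ≤ ‖δ‖ + t * ‖lam‖ + |lam.im|
    linarith [abs_nonneg lam.im]
  · have h6 : DB (AX (alc k)) (cX (alc k)) k q d (κ * (A * (20 + 8 * c₁) * t))
        (fun δ lam => ‖δ‖ + t * ‖lam‖) := by
      refine db_of hAd.mem ?_ fun δ lam => ?_
      · refine h2.trans ?_
        calc A * M⁻¹ ≤ A * (4 * t) := by gcongr
          _ ≤ A * (20 + 8 * c₁) * t := by
            have : 0 ≤ A * t := by positivity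
            have : 0 ≤ A * c₁ * t := by positivity
            nlinarith
      · refine (h3 δ lam).trans ?_
        have h7 : (‖δ‖ + ‖d‖ * ‖lam‖) * M⁻¹ ≤ (‖δ‖ + 2 * c₁ * t * ‖lam‖) * (4 * t) := by
          gcongr
        have h8 : ‖lam‖ * M⁻¹ ^ 2 ≤ ‖lam‖ * (4 * t) ^ 2 := by gcongr
        have h9 : (‖δ‖ + ‖d‖ * ‖lam‖) * M⁻¹ + ‖lam‖ * M⁻¹ ^ 2 ≤
            (20 + 8 * c₁) * (t * (‖δ‖ + t * ‖lam‖)) := by
          refine (add_le_add h7 h8).trans ?_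
          have h10 : 0 ≤ t * t * ‖lam‖ := by positivity
          have h11 : 0 ≤ c₁ * (t * ‖δ‖) := by positivity
          have h12 : 0 ≤ t * ‖δ‖ := by positivity
          nlinarith
        calc A * ((‖δ‖ + ‖d‖ * ‖lam‖) * M⁻¹ + ‖lam‖ * M⁻¹ ^ 2)
            ≤ A * ((20 + 8 * c₁) * (t * (‖δ‖ + t * ‖lam‖))) := by gcongr
          _ = _ := by ring
    exact h6.mono (le_of_eq (by ring)) fun δ lam => le_of_eq (by ring)

end Vale.Agent.P273.H188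

end
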