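import Vale.Agent.P273.H95.Wall
import Vale.Agent.P273.H356.Move6

/-!
# P273, BULK-EQ: the half twist law for `PhiF`
-/

noncomputable section

namespace Vale.Agent.P273.H188

open Set Filter MeasureTheory
open Vale.Agent.P273.H681 (C6 sw swL XX)
open Vale.Agent.P273.H95
open Vale.Agent.P273.H973 (wedgeT wedgeT_comp wedgeT_compT wedgeT_eq_zero_of_zero)
open Vale.Agent.P273.H356 (swL_swL swL_mem)

/-- Exchange of two labels, as an equivalence. -/
def swE (k : Fin 5) : C6 ≃L[ℝ] C6 :=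
  ContinuousLinearEquiv.equivOfInverse (swL k) (swL k) (swL_swL k) (swL_swL k)

theorem swE_coe (k : Fin 5) : (swE k : C6 →L[ℝ] C6) = swL k := rfl

theorem rts_swL (k : Fin 5) (b : C6) : rts (swL k b) = rts b := by
  funext i
  change (∏ j : Fin 6, (Polynomial.X - Polynomial.C (b (sw k j)))).coeff i = _
  rw [Equiv.prod_comp (sw k) fun j => Polynomial.X - Polynomial.C (b j)]
  rfl

theorem fderiv_rts (k : Fin 5) (b : C6) :
    fderiv ℝ rts b = (fderiv ℝ rts (swL k b)).comp (swL k) := by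
  have h : rts ∘ (swE k : C6 → C6) = rts := by
    funext b
    exact rts_swL k b
  have h2 := (swE k).comp_right_fderiv (f := rts) (x := b)
  rw [h] at h2
  exact h2

theorem sx_rts (b : C6) (x : ℂ) : sx (rts b) x = ∏ i, (x - b i) := by
  have h1 : (∏ j, (Polynomial.X - Polynomial.C (b j))).natDegree = 6 := by
    rw [Polynomial.natDegree_prod_of_monic _ _ fun j _ => Polynomial.monic_X_sub_C _]
    simp
  have h2 : (∏ j, (Polynomial.X - Polynomial.C (b j))).coeff 6 = 1 := by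
    have h3 : (∏ j, (Polynomial.X - Polynomial.C (b j))).Monic :=
      Polynomial.monic_prod_of_monic _ _ fun j _ => Polynomial.monic_X_sub_C _
    have h4 := h3.coeff_natDegree
    rwa [h1] at h4
  have h5 : (∏ j, (Polynomial.X - Polynomial.C (b j))).eval x = ∏ i, (x - b i) := by
    rw [Polynomial.eval_prod]
    simp
  rw [← h5, Polynomial.eval_eq_sum_range, h1, Finset.sum_range_succ, h2, one_mul, add_comm, sx,
    Finset.sum_range]
  rfl

theorem csq_sq (z : ℂ) : csq z ^ 2 = z := by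
  have := Complex.cpow_nat_inv_pow z (n := 2) two_ne_zero
  rw [csq]
  simpa using this

theorem sheet_sq (S : L → Bool) (e : E) (s : L → Bool) (j : L) :
    sheet S e s j ^ 2 = pol (S j) (rts e.1) (e.2 j) := by
  rw [sheet, mul_pow, csq_sq]
  split_ifs <;> ring

/-! ### The classes -/

theorem isCl_col4 (a : Fin 4) : IsCl (col4 a) := by
  fin_cases a <;> simp [IsCl, col4, Fin.sum_univ_succ] <;> norm_num

theorem isCl_one : IsCl (fun _ => 1) := by
  simp only [IsCl, Fin.sum_univ_succ]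
  norm_num

theorem isCl_add {ξ ζ : Fin 6 → ℝ} (h1 : IsCl ξ) (h2 : IsCl ζ) : IsCl (ξ + ζ) := by
  have e : ∑ k : Fin 6, (-1 : ℝ) ^ (k : ℕ) * (ξ + ζ) k =
      ∑ k : Fin 6, (-1 : ℝ) ^ (k : ℕ) * ξ k + ∑ k : Fin 6, (-1 : ℝ) ^ (k : ℕ) * ζ k := by
    rw [← Finset.sum_add_distrib]
    exact Finset.sum_congr rfl fun k _ => by rw [Pi.add_apply, mul_add]
  rw [IsCl, e, h1, h2, add_zero]

theorem isCl_smul {ξ : Fin 6 → ℝ} (c : ℝ) (h : IsCl ξ) : IsCl (c • ξ) := by
  have e : ∑ k : Fin 6, (-1 : ℝ) ^ (k : ℕ) * (c • ξ) k =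
      c * ∑ k : Fin 6, (-1 : ℝ) ^ (k : ℕ) * ξ k := by
    rw [Finset.mul_sum]
    exact Finset.sum_congr rfl fun k _ => by rw [Pi.smul_apply, smul_eq_mul]; ring
  rw [IsCl, e, h, mul_zero]

/-- The constants in the action on the four classes. -/
def cst (k : Fin 5) (a : Fin 4) : ℝ := if k = 2 ∧ (a = 0 ∨ a = 2) then -1 else 0

theorem act_col4' (k : Fin 5) (a : Fin 4) (i : Fin 6) : act k (col4 a) i = col4 a i +
    (dk k a * ((-dk k 1) * col4 0 i + (dk k 0 * col4 1 i + ((-dk k 3) * col4 2 i +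
      dk k 2 * col4 3 i))) + cst k a) := by
  fin_cases k <;> fin_cases a <;> fin_cases i <;>
    simp [act, col4, dk, cst] <;> norm_num

theorem act_col4 (k : Fin 5) (a : Fin 4) : act k (col4 a) = col4 a +
    (dk k a • ((-dk k 1) • col4 0 + (dk k 0 • col4 1 + ((-dk k 3) • col4 2 + dk k 2 • col4 3))) +
      cst k a • fun _ => (1 : ℝ)) := by
  funext i
  rw [act_col4']
  simp only [Pi.add_apply, Pi.smul_apply, smul_eq_mul, mul_one]

theorem th_law (Θ : Gauge) (i : Fin 14) (k : Fin 5) {b : C6} (hb : b ∈ XX)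
    (hk : (b k.succ).re < (b k.castSucc).re) (S : L → Bool) (x : L → ℂ) (v : L → ℂ)
    (hv : OnC S (rts b) x v) : Θ.th i S (b, x) v =
      ((sH k).comp (Θ.th i S (swL k b, x) v)).comp
        ((swL k).prodMap (ContinuousLinearMap.id ℝ (L → ℂ))) := by
  refine ContinuousLinearMap.ext fun w => funext fun a => ?_
  have h1 := Θ.law (mrk i) (col4 a) S (b, x) v k (isCl_col4 a) hb hk hv
  have c0 := isCl_col4 0
  have c1 := isCl_col4 1
  have c2 := isCl_col4 2
  have c3 := isCl_col4 3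
  have c23 := isCl_add (isCl_smul (-dk k 3) c2) (isCl_smul (dk k 2) c3)
  have c13 := isCl_add (isCl_smul (dk k 0) c1) c23
  have c03 := isCl_add (isCl_smul (-dk k 1) c0) c13
  have h2 : Θ.θ (mrk i) (act k (col4 a)) S (swL k b, x) v =
      Θ.θ (mrk i) (col4 a) S (swL k b, x) v +
      (dk k a • ((-dk k 1) • Θ.θ (mrk i) (col4 0) S (swL k b, x) v +
        (dk k 0 • Θ.θ (mrk i) (col4 1) S (swL k b, x) v +
        ((-dk k 3) • Θ.θ (mrk i) (col4 2) S (swL k b, x) v +
          dk k 2 • Θ.θ (mrk i) (col4 3) S (swL k b, x) v))) + cst k a • 0) := by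
    rw [act_col4, Θ.add _ _ _ _ _ _ (isCl_col4 a) (isCl_add (isCl_smul _ c03)
        (isCl_smul _ isCl_one)),
      Θ.add _ _ _ _ _ _ (isCl_smul _ c03) (isCl_smul _ isCl_one), Θ.smul _ _ _ _ _ _ c03,
      Θ.smul _ _ _ _ _ _ isCl_one, Θ.const,
      Θ.add _ _ _ _ _ _ (isCl_smul _ c0) c13, Θ.add _ _ _ _ _ _ (isCl_smul _ c1) c23,
      Θ.add _ _ _ _ _ _ (isCl_smul _ c2) (isCl_smul _ c3),
      Θ.smul _ _ _ _ _ _ c0, Θ.smul _ _ _ _ _ _ c1, Θ.smul _ _ _ _ _ _ c2,
      Θ.smul _ _ _ _ _ _ c3]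
  change Θ.θ (mrk i) (col4 a) S (b, x) v w = _
  rw [h1]
  change Θ.θ (mrk i) (act k (col4 a)) S (swL k b, x) v
    ((swL k).prodMap (ContinuousLinearMap.id ℝ (L → ℂ)) w) = _
  rw [h2, smul_zero, add_zero]
  set w' := (swL k).prodMap (ContinuousLinearMap.id ℝ (L → ℂ)) w with hw'
  change Θ.θ (mrk i) (col4 a) S (swL k b, x) v w' +
      dk k a * ((-dk k 1) * Θ.θ (mrk i) (col4 0) S (swL k b, x) v w' +
        (dk k 0 * Θ.θ (mrk i) (col4 1) S (swL k b, x) v w' +
        ((-dk k 3) * Θ.θ (mrk i) (col4 2) S (swL k b, x) v w' +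
          dk k 2 * Θ.θ (mrk i) (col4 3) S (swL k b, x) v w'))) =
    Θ.θ (mrk i) (col4 a) S (swL k b, x) v w' +
      (dk k 0 * Θ.θ (mrk i) (col4 1) S (swL k b, x) v w' -
        dk k 1 * Θ.θ (mrk i) (col4 0) S (swL k b, x) v w' +
        dk k 2 * Θ.θ (mrk i) (col4 3) S (swL k b, x) v w' -
        dk k 3 * Θ.θ (mrk i) (col4 2) S (swL k b, x) v w') * dk k a
  ring

theorem GR_swL (G : (L → Bool) → E → (L → ℂ) → Alt 16 E) (S : L → Bool) (k : Fin 5) (b : C6)
    (x v : L → ℂ) : GR G S (b, x) v = (GR G S (swL k b, x) v).compContinuousLinearMap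
      ((swL k).prodMap (ContinuousLinearMap.id ℝ (L → ℂ))) := by
  ext w
  simp only [GR, ContinuousAlternatingMap.compContinuousLinearMap_apply, rts_swL]
  rw [fderiv_rts k b]
  rfl

theorem sheet_swL (S : L → Bool) (k : Fin 5) (b : C6) (x : L → ℂ) (s : L → Bool) :
    sheet S (swL k b, x) s = sheet S (b, x) s := by
  funext j
  simp only [sheet, rts_swL]

theorem pol_false (a : C6) (z : ℂ) : pol false a z = sx a z := rfl

/-- The forms of a mark at a root vanish. -/
theorem th_zero (Θ : Gauge) (i : Fin 14) {b : C6} (hb : b ∈ XX) (x : L → ℂ) (s : L → Bool)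
    (h : sheet (fun _ => false) (b, x) s (mrk i) = 0) :
    Θ.th i (fun _ => false) (b, x) (sheet (fun _ => false) (b, x) s) = 0 := by
  have h1 := sheet_sq (fun _ => false) (b, x) s (mrk i)
  rw [h, pol_false, sx_rts] at h1
  have h2 : ∏ l, (x (mrk i) - b l) = 0 := by
    rw [← h1]; simp
  obtain ⟨l, -, hl⟩ := Finset.prod_eq_zero_iff.1 h2
  obtain ⟨r, hr, h3⟩ := Θ.root b hb l
  refine ContinuousLinearMap.ext fun w => funext fun a => ?_
  have h4 := h3 (mrk i) (col4 a) (fun _ => false) (b, x) (sheet (fun _ => false) (b, x) s)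
    (isCl_col4 a) (by simpa using hr) (by simpa [hl] using hr)
    (fun j => sheet_sq (fun _ => false) (b, x) s j)
  change Θ.θ (mrk i) (col4 a) (fun _ => false) (b, x) (sheet (fun _ => false) (b, x) s) w = 0
  rw [h4]
  rfl

theorem exists_mrk (j : L) : ∃ i, mrk i = j := by
  obtain ⟨j, _ | _⟩ := j
  · refine ⟨⟨j + 7, by omega⟩, ?_⟩
    simp [mrk]
  · refine ⟨⟨j, by omega⟩, ?_⟩
    simp [mrk]

/-- The integrand at the exchanged roots. -/
theorem Wf_swL (X : Ext) (Θ : Gauge) (T : MT) (k : Fin 5) {b : C6} (hb : b ∈ XX)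
    (hk : (b k.succ).re < (b k.castSucc).re) (x : L → ℂ) :
    Wf X Θ T (fun _ => false) (b, x) =
      (Wf X Θ (T.compContinuousLinearMap fun _ => sH k) (fun _ => false)
        (swL k b, x)).compContinuousLinearMap
          ((swL k).prodMap (ContinuousLinearMap.id ℝ (L → ℂ))) := by
  have h0 : ∀ (f : (L → Bool) → Alt (16 + 14) E) (A : E →L[ℝ] E),
      (∑ s : L → Bool, f s).compContinuousLinearMap A =
        ∑ s : L → Bool, (f s).compContinuousLinearMap A := by
    intro f A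
    exact _root_.map_sum (ContinuousAlternatingMap.compContinuousLinearMapCLM (F := ℝ)
      (ι := Fin (16 + 14)) A) f Finset.univ
  rw [Wf, Wf, h0]
  refine Finset.sum_congr rfl fun s _ => ?_
  rw [sheet_swL, wedgeT_comp, ← GR_swL, wedgeT_compT]
  by_cases h : ∀ j, sheet (fun _ => false) (b, x) s j ≠ 0
  · congr 1
    funext i
    rw [th_law Θ i k hb hk (fun _ => false) x _ fun j => ⟨sheet_sq _ _ _ _, h j⟩]
    rfl
  · push Not at h
    obtain ⟨j, hj⟩ := h
    obtain ⟨i, rfl⟩ := exists_mrk j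
    rw [wedgeT_eq_zero_of_zero _ _ (a := i) (th_zero Θ i hb x s hj)]
    have hj' : sheet (fun _ => false) (swL k b, x) s (mrk i) = 0 := by rw [sheet_swL, hj]
    have h1 := th_zero Θ i (swL_mem k hb hk) x s hj'
    rw [sheet_swL] at h1
    rw [wedgeT_eq_zero_of_zero _ _ (a := i)]
    rw [h1, ContinuousLinearMap.zero_comp, ContinuousLinearMap.comp_zero]

theorem fixA_comp {n m : ℕ} (k : Fin 5) (e : Fin n → L → ℂ) (ω : E [⋀^Fin (n + m)]→L[ℝ] ℝ) :
    H811.fixA e (ω.compContinuousLinearMap ((swL k).prodMap (ContinuousLinearMap.id ℝ (L → ℂ)))) =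
      (H811.fixA e ω).compContinuousLinearMap (swL k) := by
  ext w
  rw [H811.fixA_apply, ContinuousAlternatingMap.compContinuousLinearMap_apply,
    ContinuousAlternatingMap.compContinuousLinearMap_apply, H811.fixA_apply]
  congr 1
  funext l
  refine Fin.addCases (fun a => ?_) (fun a => ?_) l
  · rw [Function.comp_apply, H811.vec_castAdd, H811.vec_castAdd]
    simp
  · rw [Function.comp_apply, H811.vec_natAdd, H811.vec_natAdd]
    simp

/-- Pull-back along the exchange, as an equivalence. -/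
def pbE {m : ℕ} (k : Fin 5) : (C6 [⋀^Fin m]→L[ℝ] ℝ) ≃L[ℝ] (C6 [⋀^Fin m]→L[ℝ] ℝ) :=
  ContinuousLinearEquiv.equivOfInverse
    (ContinuousAlternatingMap.compContinuousLinearMapCLM (swL k))
    (ContinuousAlternatingMap.compContinuousLinearMapCLM (swL k))
    (fun f => by
      ext w
      change f (swL k ∘ (swL k ∘ w)) = f w
      congr 1
      funext i
      exact swL_swL k _)
    (fun f => by
      ext w
      change f (swL k ∘ (swL k ∘ w)) = f w
      congr 1
      funext i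
      exact swL_swL k _)

theorem fib_swL {n m : ℕ} (k : Fin 5) (e : Fin n → L → ℂ) (W W' : E → E [⋀^Fin (n + m)]→L[ℝ] ℝ)
    (b : C6) (h : ∀ x, W (b, x) = (W' (swL k b, x)).compContinuousLinearMap
      ((swL k).prodMap (ContinuousLinearMap.id ℝ (L → ℂ)))) :
    H811.fib volume e W b =
      (H811.fib volume e W' (swL k b)).compContinuousLinearMap (swL k) := by
  have h1 : ∀ x : L → ℂ, H811.fixA e (W (b, x)) = pbE k (H811.fixA e (W' (swL k b, x))) := by
    intro x
    rw [h x]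
    exact fixA_comp k e _
  change (∫ x, H811.fixA e (W (b, x))) = pbE k (∫ x, H811.fixA e (W' (swL k b, x)))
  rw [← ContinuousLinearEquiv.integral_comp_comm]
  exact integral_congr_ae (Eventually.of_forall h1)

/-- **BULK, part 3.** -/
theorem bulkLaw : BulkLaw := fun X Θ T _ k b hb hk =>
  fib_swL (n := 28) (m := 2) k vb (Wf X Θ T fun _ => false)
    (Wf X Θ (T.compContinuousLinearMap fun _ => sH k) fun _ => false) b (Wf_swL X Θ T k hb hk)

end Vale.Agent.P273.H188

end
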