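import Vale.Agent.P273.H837.Strata

/-!
Relabelling of the marked points of families of stable curves, of natural closed forms and of the
strata.
-/

noncomputable section

namespace Vale.Agent.P273.H188

open Set Sum H183 H837
open scoped Topology ContDiff

variable {L L' V E : Type} {m k : ℕ}

/-- The family `C` with the marked points relabelled by `e`. -/
def rel (e : L ≃ L') (C : Fam L' m) : Fam L m where
  B := C.B
  X := C.X
  π := C.π
  hol := C.hol
  s := fun i => C.s (e i)

theorem isField_rel (e : L ≃ L') (C : Fam L' m) (b : Fin m → ℂ)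
    (D : (C.X → ℂ) → C.X → ℂ) : (rel e C).IsField b D ↔ C.IsField b D := by
  refine and_congr Iff.rfl (and_congr Iff.rfl ⟨fun h i f hf => ?_, fun h i f hf => h (e i) f hf⟩)
  obtain ⟨j, rfl⟩ := e.surjective i
  exact h j f hf

theorem isStable_rel (e : L ≃ L') {C : Fam L' m} (h : C.IsStable) : (rel e C).IsStable := by
  obtain ⟨h1, h2, h3, h4, h5, h6⟩ := h
  refine ⟨h1, h2, h3, h4, h5, fun b hb => ⟨(h6 b hb).1, fun i => ?_, fun D hD => ?_⟩⟩
  · obtain ⟨g1, g2, g3, g4, g5⟩ := (h6 b hb).2.1 (e i)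
    exact ⟨g1, g2, g3, fun j hj => e.injective (g4 (e j) hj), g5⟩
  · exact (h6 b hb).2.2 D ((isField_rel e C b D).1 hD)

theorem rel_rel {L'' : Type} (e : L ≃ L') (e' : L' ≃ L'') (C : Fam L'' m) :
    rel e (rel e' C) = rel (e.trans e') C := rfl

theorem rel_refl (C : Fam L m) : rel (Equiv.refl L) C = C := rfl

theorem rel_symm_rel (e : L ≃ L') (C : Fam L m) : rel e (rel e.symm C) = C := by
  rw [rel_rel, Equiv.self_trans_symm, rel_refl]

theorem rel_rel_symm (e : L ≃ L') (C : Fam L' m) : rel e.symm (rel e C) = C := by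
  rw [rel_rel, Equiv.symm_trans_self, rel_refl]

theorem isStable_rel_iff (e : L ≃ L') (C : Fam L' m) : (rel e C).IsStable ↔ C.IsStable :=
  ⟨fun h => by simpa only [rel_rel_symm] using isStable_rel e.symm h, isStable_rel e⟩

theorem isMor_rel {m m' : ℕ} (e : L ≃ L') {C' : Fam L' m'} {C : Fam L' m}
    {φ : (Fin m' → ℂ) → Fin m → ℂ} {Φ : C'.X → C.X} (h : IsMor C' C φ Φ) :
    IsMor (rel e C') (rel e C) φ Φ := by
  refine ⟨fun b hb => ?_, h.2.1, h.2.2⟩
  obtain ⟨h1, h2, h3, h4⟩ := h.1 b hb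
  exact ⟨h1, h2, h3, fun i => h4 (e i)⟩

/-- The form `F` with the marked points relabelled by `e`. -/
def relF (e : L ≃ L') (F : ∀ m, Fam L m → (Fin m → ℂ) → (Fin m → ℂ) [⋀^Fin k]→L[ℝ] ℝ) :
    ∀ m, Fam L' m → (Fin m → ℂ) → (Fin m → ℂ) [⋀^Fin k]→L[ℝ] ℝ := fun m C => F m (rel e C)

theorem isClosedForm_relF (e : L ≃ L')
    {F : ∀ m, Fam L m → (Fin m → ℂ) → (Fin m → ℂ) [⋀^Fin k]→L[ℝ] ℝ}
    (hF : IsClosedForm L k F) : IsClosedForm L' k (relF e F) :=
  ⟨fun m C hC => hF.1 m (rel e C) (isStable_rel e hC), fun m m' C C' φ Φ hC hC' h =>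
    hF.2 m m' (rel e C) (rel e C') φ Φ (isStable_rel e hC) (isStable_rel e hC') (isMor_rel e h)⟩

theorem relF_symm_relF (e : L ≃ L')
    (F : ∀ m, Fam L m → (Fin m → ℂ) → (Fin m → ℂ) [⋀^Fin k]→L[ℝ] ℝ) :
    relF e.symm (relF e F) = F := by
  funext m C
  exact congrArg (F m) (rel_symm_rel e C)

theorem map_symm_map (e : L ≃ L') (y : (E × Bool) ⊕ L') :
    Sum.map id e (Sum.map id e.symm y) = y := by rcases y with y | y <;> simp

theorem map_map_symm (e : L ≃ L') (y : (E × Bool) ⊕ L) :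
    Sum.map id e.symm (Sum.map id e y) = y := by rcases y with y | y <;> simp

section graphs

variable (e : L ≃ L') {h : (E × Bool) ⊕ L' → V} {h' : (E × Bool) ⊕ L → V}
  (hh : ∀ y, h' y = h (Sum.map id e y))

/-- The coordinates on the moduli space of a graph, with the legs relabelled. -/
def relC (c : Coord h m) : Coord h' m where
  c := fun y => c.c (Sum.map id e y)
  const := fun v i => by
    obtain ⟨y, hy, hu⟩ := c.const v i
    refine ⟨Sum.map id e.symm y, ?_, fun z hz => ?_⟩
    · simpa only [hh, map_symm_map] using hy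
    · rw [← hu _ ⟨by rw [← hh]; exact hz.1, hz.2⟩, map_map_symm]
  coord := fun j => by
    obtain ⟨y, hy, hu⟩ := c.coord j
    refine ⟨Sum.map id e.symm y, ?_, fun z hz => ?_⟩
    · simpa only [map_symm_map] using hy
    · rw [← hu _ hz, map_map_symm]

theorem relC_base (c : Coord h m) : (relC e hh c).base = c.base := by
  ext b
  constructor
  · intro hb y y' h1 h2
    have := hb (Sum.map id e.symm y) (Sum.map id e.symm y')
      (by simpa only [hh, map_symm_map] using h1) (by simpa only [relC, map_symm_map] using h2)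
    rw [← map_symm_map e y, this, map_symm_map]
  · intro hb y y' h1 h2
    have h3 := hb _ _ (by rw [← hh, ← hh]; exact h1) h2
    rw [← map_map_symm e y, h3, map_map_symm]

theorem isGlued_relC {c : Coord h m} {C : Fam L' m} (hc : c.IsGlued C) :
    (relC e hh c).IsGlued (rel e C) := by
  obtain ⟨h1, g, h2, h3, h4⟩ := hc
  refine ⟨by rw [relC_base]; exact h1, g, ?_, ?_, ?_⟩
  · rw [relC_base]; exact h2
  · rw [relC_base]; exact h3
  · rw [relC_base]
    intro b hb
    obtain ⟨k1, k2, k3, k4⟩ := h4 b hb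
    refine ⟨k1, fun v z v' z' => (k2 v z v' z').trans (or_congr Iff.rfl ?_), k3, fun x => ?_⟩
    · simp only [hh]
      rfl
    · rw [hh]
      exact k4 (e x)

end graphs

/-- `I` is the integral of `F` over the stratum of the graph `h`, for all choices of the
coordinates and of the family. -/
def HasInt (F : ∀ m', Fam L m' → (Fin m' → ℂ) → (Fin m' → ℂ) [⋀^Fin (m * 2)]→L[ℝ] ℝ)
    (h : (E × Bool) ⊕ L → V) (I : ℝ) : Prop :=
  ∀ (c : Coord h m) (C : Fam L m), C.IsStable → c.IsGlued C →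
    MeasureTheory.IntegrableOn (dens (F m C)) c.base ∧ ∫ b in c.base, dens (F m C) b = I

theorem hasInt_relF_of (e : L ≃ L') {h : (E × Bool) ⊕ L' → V} {h' : (E × Bool) ⊕ L → V}
    (hh : ∀ y, h' y = h (Sum.map id e y))
    {F : ∀ m', Fam L m' → (Fin m' → ℂ) → (Fin m' → ℂ) [⋀^Fin (m * 2)]→L[ℝ] ℝ} {I : ℝ}
    (hI : HasInt F h' I) : HasInt (relF e F) h I := by
  intro c C hC hc
  have := hI (relC e hh c) (rel e C) (isStable_rel e hC) (isGlued_relC e hh hc)
  rwa [relC_base] at this

/-- The integral of the relabelled form over the stratum of `h` is the integral of the form over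
the stratum of the relabelled graph. -/
theorem hasInt_relF (e : L ≃ L') {h : (E × Bool) ⊕ L' → V} {h' : (E × Bool) ⊕ L → V}
    (hh : ∀ y, h' y = h (Sum.map id e y))
    {F : ∀ m', Fam L m' → (Fin m' → ℂ) → (Fin m' → ℂ) [⋀^Fin (m * 2)]→L[ℝ] ℝ} {I : ℝ} :
    HasInt (relF e F) h I ↔ HasInt F h' I := by
  refine ⟨fun hI => ?_, hasInt_relF_of e hh⟩
  have := hasInt_relF_of e.symm (h := h') (h' := h) (F := relF e F)
    (fun y => by rw [hh, map_symm_map]) hI
  rwa [relF_symm_relF] at this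

/-- Existence of a stable glued family is invariant under relabelling. -/
theorem exists_glued_rel (e : L ≃ L') {h : (E × Bool) ⊕ L' → V} {h' : (E × Bool) ⊕ L → V}
    (hh : ∀ y, h' y = h (Sum.map id e y))
    (H : ∃ (c : Coord h m) (C : Fam L' m), C.IsStable ∧ c.IsGlued C) :
    ∃ (c : Coord h' m) (C : Fam L m), C.IsStable ∧ c.IsGlued C := by
  obtain ⟨c, C, h1, h2⟩ := H
  exact ⟨relC e hh c, rel e C, isStable_rel e h1, isGlued_relC e hh h2⟩

/-- The relabelling of the `14` marked points by two permutations. -/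
def pe (σ : Bool → Equiv.Perm (Fin 7)) : Fin 7 × Bool ≃ Fin 7 × Bool where
  toFun := fun x => (σ x.2 x.1, x.2)
  invFun := fun x => ((σ x.2).symm x.1, x.2)
  left_inv := fun x => by simp
  right_inv := fun x => by simp

@[simp] theorem pe_apply (σ : Bool → Equiv.Perm (Fin 7)) (x : Fin 7 × Bool) :
    pe σ x = (σ x.2 x.1, x.2) := rfl

end Vale.Agent.P273.H188
end
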