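import Vale.Agent.P273.H395.Norm
import Vale.Agent.P273.H188.Relabel

/-!
Normalisation data: restriction of the parameter set, change of the parameter, isomorphism of the
graph.
-/

noncomputable section

namespace Vale.Agent.P273.H188

open Set Sum Filter H183 H837 H395
open scoped Topology

variable {L L' V V' E E' : Type} {m m' m'' : ℕ}

/-- Restriction to a smaller set of parameters. -/
theorem Norm.mono {C : Fam L m} {U U' : Set (Fin m' → ℂ)} {φ : (Fin m' → ℂ) → Fin m → ℂ}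
    {h : (E × Bool) ⊕ L → V} {z : (E × Bool) ⊕ L → (Fin m' → ℂ) → OnePoint ℂ}
    {g : V → OnePoint ℂ → (Fin m' → ℂ) → C.X} (hN : Norm C U φ h z g) (hU : U' ⊆ U) :
    Norm C U' φ h z g where
  an := fun b hb => hN.an b (hU hb)
  mem := fun b hb => hN.mem b (hU hb)
  cont := fun v => (hN.cont v).mono (prod_mono Subset.rfl hU)
  proj := fun b hb => hN.proj b (hU hb)
  onto := fun b hb => hN.onto b (hU hb)
  ident := fun b hb => hN.ident b (hU hb)
  hol := fun b hb => hN.hol b (hU hb)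
  mark := fun b hb => hN.mark b (hU hb)

theorem hol1_comp {f : OnePoint ℂ → (Fin m' → ℂ) → ℂ} {ψ : (Fin m'' → ℂ) → Fin m' → ℂ}
    {w : OnePoint ℂ} {b : Fin m'' → ℂ} (hψ : AnalyticAt ℂ ψ b) (hf : Hol1 f w (ψ b)) :
    Hol1 (fun w b => f w (ψ b)) w b := by
  have h1 : ∀ c : ℂ, AnalyticAt ℂ (fun u : ℂ × (Fin m'' → ℂ) => (u.1, ψ u.2)) (c, b) := fun c =>
    analyticAt_fst.prod (hψ.comp_of_eq analyticAt_snd rfl)
  exact ⟨fun c hc => (hf.1 c hc).comp_of_eq (h1 c) rfl,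
    fun hw => (hf.2 hw).comp_of_eq (h1 0) rfl⟩

/-- Change of the parameter. -/
theorem Norm.comp {C : Fam L m} {U : Set (Fin m' → ℂ)} {U' : Set (Fin m'' → ℂ)}
    {φ : (Fin m' → ℂ) → Fin m → ℂ} {ψ : (Fin m'' → ℂ) → Fin m' → ℂ}
    {h : (E × Bool) ⊕ L → V} {z : (E × Bool) ⊕ L → (Fin m' → ℂ) → OnePoint ℂ}
    {g : V → OnePoint ℂ → (Fin m' → ℂ) → C.X} (hN : Norm C U φ h z g)
    (hψ : ∀ b ∈ U', AnalyticAt ℂ ψ b) (hm : MapsTo ψ U' U) :
    Norm C U' (φ ∘ ψ) h (fun y b => z y (ψ b)) (fun v w b => g v w (ψ b)) where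
  an := fun b hb => (hN.an _ (hm hb)).comp_of_eq (hψ b hb) rfl
  mem := fun b hb => hN.mem _ (hm hb)
  cont := fun v => by
    have h1 : ContinuousOn (fun u : OnePoint ℂ × (Fin m'' → ℂ) => (u.1, ψ u.2)) (univ ×ˢ U') := by
      refine continuousOn_fst.prodMk ?_
      intro u hu
      exact ((hψ u.2 hu.2).continuousAt.comp_of_eq continuousAt_snd rfl).continuousWithinAt
    exact (hN.cont v).comp h1 fun u hu => ⟨mem_univ _, hm hu.2⟩
  proj := fun b hb v w => hN.proj _ (hm hb) v w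
  onto := fun b hb => hN.onto _ (hm hb)
  ident := fun b hb => hN.ident _ (hm hb)
  hol := fun b hb v w f hf => hol1_comp (f := fun w b => f (g v w b)) (hψ b hb)
    (hN.hol _ (hm hb) v w f hf)
  mark := fun b hb => hN.mark _ (hm hb)

/-- Isomorphism of the graph: bijections of the vertices, of the legs and of the half-edges. -/
theorem Norm.reindex {C : Fam L m} {U : Set (Fin m' → ℂ)} {φ : (Fin m' → ℂ) → Fin m → ℂ}
    {h : (E × Bool) ⊕ L → V} {z : (E × Bool) ⊕ L → (Fin m' → ℂ) → OnePoint ℂ}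
    {g : V → OnePoint ℂ → (Fin m' → ℂ) → C.X} (hN : Norm C U φ h z g)
    (pV : V' ≃ V) (pL : L' ≃ L) (pE : E' × Bool ≃ E × Bool)
    (hpE : ∀ e s, pE (e, !s) = ((pE (e, s)).1, !(pE (e, s)).2))
    {h' : (E' × Bool) ⊕ L' → V'} {z' : (E' × Bool) ⊕ L' → (Fin m' → ℂ) → OnePoint ℂ}
    (hh : ∀ y, pV (h' y) = h (Sum.map pE pL y))
    (hz : ∀ y, ∀ b ∈ U, z' y b = z (Sum.map pE pL y) b) :
    Norm (rel pL C) U φ h' z' (fun v w b => g (pV v) w b) where
  an := hN.an
  mem := hN.mem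
  cont := fun v => hN.cont (pV v)
  proj := fun b hb v w => hN.proj b hb (pV v) w
  onto := fun b hb p hp => by
    obtain ⟨v, w, e⟩ := hN.onto b hb p hp
    exact ⟨pV.symm v, w, by rw [Equiv.apply_symm_apply]; exact e⟩
  ident := fun b hb v w v' w' => by
    have hv : ∀ (y : (E' × Bool) ⊕ L') (v : V'), v = h' y ↔ pV v = h (Sum.map pE pL y) := by
      intro y v
      rw [← hh, pV.apply_eq_iff_eq]
    refine (hN.ident b hb (pV v) w (pV v') w').trans
      (or_congr (and_congr pV.apply_eq_iff_eq Iff.rfl) ?_)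
    constructor
    · rintro ⟨e, s, ⟨h1, h2⟩, h3, h4⟩
      obtain ⟨⟨e', s'⟩, he⟩ := pE.surjective (e, s)
      have he' : pE (e', !s') = (e, !s) := by rw [hpE, he]
      refine ⟨e', s', ⟨(hv _ _).2 ?_, ?_⟩, (hv _ _).2 ?_, ?_⟩
      · simpa only [Sum.map_inl, he] using h1
      · rw [hz _ b hb]
        simpa only [Sum.map_inl, he] using h2
      · simpa only [Sum.map_inl, he'] using h3
      · rw [hz _ b hb]
        simpa only [Sum.map_inl, he'] using h4
    · rintro ⟨e, s, ⟨h1, h2⟩, h3, h4⟩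
      rw [hz _ b hb] at h2 h4
      have h1' := (hv _ _).1 h1
      have h3' := (hv _ _).1 h3
      simp only [Sum.map_inl, hpE] at h1' h2 h3' h4
      exact ⟨(pE (e, s)).1, (pE (e, s)).2, ⟨h1', h2⟩, h3', h4⟩
  hol := fun b hb v w f hf => hN.hol b hb (pV v) w f hf
  mark := fun b hb x => by
    have := hN.mark b hb (pL x)
    change C.s (pL x) (φ b) = _
    rw [this, hz _ b hb, hh]
    rfl

end Vale.Agent.P273.H188
end
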