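import Vale.Agent.P273.H973.Omega

/-!
The form `F ∧ T(θ_1, ..., θ_q)` under permutations of the one-forms which preserve the type, and
under permutations of complex coordinates.
-/

noncomputable section

namespace Vale.Agent.P273.H188

open Finset Function H973

variable {E E' H G : Type*} [NormedAddCommGroup E] [NormedSpace ℝ E]
  [NormedAddCommGroup E'] [NormedSpace ℝ E']
  [NormedAddCommGroup H] [NormedSpace ℝ H] [NormedAddCommGroup G] [NormedSpace ℝ G]
  {p q : ℕ}

/-- Symmetry of `T` under the permutation `ρ` of the slots. -/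
def SymP (T : ContinuousMultilinearMap ℝ (fun _ : Fin q => H) G) (ρ : Equiv.Perm (Fin q)) : Prop :=
  ∀ v : Fin q → H, T (fun j => v (ρ j)) = T v

theorem SymP.one (T : ContinuousMultilinearMap ℝ (fun _ : Fin q => H) G) : SymP T 1 := fun _ => rfl

theorem SymP.mul {T : ContinuousMultilinearMap ℝ (fun _ : Fin q => H) G}
    {ρ τ : Equiv.Perm (Fin q)} (h : SymP T ρ) (h' : SymP T τ) : SymP T (ρ * τ) := fun v => by
  rw [← h v, ← h' (fun j => v (ρ j))]
  rfl

theorem symP_swap {T : ContinuousMultilinearMap ℝ (fun _ : Fin q => H) G} {a b : Fin q}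
    (h : SymAt T a b) : SymP T (Equiv.swap a b) := h

/-- A permutation which preserves the classes of `kind` is a product of transpositions inside the
classes. -/
theorem symP_of_kind {K : Type*} {T : ContinuousMultilinearMap ℝ (fun _ : Fin q => H) G}
    (kind : Fin q → K) (hT : ∀ a b, kind a = kind b → SymAt T a b) (ρ : Equiv.Perm (Fin q))
    (hρ : ∀ j, kind (ρ j) = kind j) : SymP T ρ := by
  -- induction on the number of points moved
  suffices H : ∀ (n : ℕ) (ρ : Equiv.Perm (Fin q)), (∀ j, kind (ρ j) = kind j) →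
      #ρ.support = n → SymP T ρ from H _ ρ hρ rfl
  intro n
  induction n using Nat.strong_induction_on with
  | _ n ih =>
    intro ρ hρ hn
    by_cases h1 : ρ = 1
    · rw [h1]; exact SymP.one T
    · obtain ⟨x, hx⟩ : ∃ x, ρ x ≠ x := by
        by_contra hc
        push Not at hc
        exact h1 (Equiv.ext hc)
      have h2 : SymP T (Equiv.swap x (ρ x)) := hT _ _ (hρ x).symm
      have h3 : #(Equiv.swap x (ρ x) * ρ).support < #ρ.support :=
        Equiv.Perm.card_support_swap_mul hx
      have h4 : ∀ j, kind ((Equiv.swap x (ρ x) * ρ) j) = kind j := by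
        intro j
        rw [Equiv.Perm.mul_apply, Equiv.swap_apply_def]
        split_ifs with h5 h6
        · rw [hρ, ← h5, hρ]
        · rw [← hρ x, ← h6, hρ]
        · exact hρ j
      have h5 := ih _ (hn ▸ h3) _ h4 rfl
      have h6 : ρ = Equiv.swap x (ρ x) * (Equiv.swap x (ρ x) * ρ) := by
        rw [← mul_assoc, Equiv.swap_mul_self, one_mul]
      rw [h6]
      exact h2.mul h5

/-- A permutation of the one-forms under which `T` is symmetric changes the form by the sign. -/
theorem wedgeT_perm (F : E [⋀^Fin p]→L[ℝ] ℝ)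
    {T : ContinuousMultilinearMap ℝ (fun _ : Fin q => H) G} (θ : Fin q → E →L[ℝ] H)
    {ρ : Equiv.Perm (Fin q)} (hT : SymP T ρ) :
    wedgeT F T (fun j => θ (ρ j)) = Equiv.Perm.sign ρ • wedgeT F T θ := by
  ext w
  have h0 : (Equiv.Perm.sign ρ • wedgeT F T θ) w = Equiv.Perm.sign ρ • wedgeT F T θ w := rfl
  rw [h0, wedgeT_apply, wedgeT_apply, smul_comm (Equiv.Perm.sign ρ)]
  refine congrArg (fun z : G => ((p.factorial : ℝ)⁻¹) • z) ?_
  let R : Equiv.Perm (Fin (p + q)) := finSumFinEquiv.permCongr (Equiv.sumCongr (Equiv.refl _) ρ)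
  have e1 : ∀ i : Fin p, R (Fin.castAdd q i) = Fin.castAdd q i := fun i => by
    simp [R, Equiv.permCongr_apply]
  have e2 : ∀ j : Fin q, R (Fin.natAdd p j) = Fin.natAdd p (ρ j) := fun j => by
    simp [R, Equiv.permCongr_apply]
  have e3 : Equiv.Perm.sign R = Equiv.Perm.sign ρ := by
    rw [Equiv.Perm.sign_permCongr]
    have := Equiv.Perm.sign_sumCongr (Equiv.refl (Fin p)) ρ
    rw [show Equiv.Perm.sign (Equiv.refl (Fin p)) = 1 from Equiv.Perm.sign_refl, one_mul] at this
    exact this
  rw [← Equiv.sum_comp (Equiv.mulRight R), Finset.smul_sum]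
  refine Finset.sum_congr rfl fun τ _ => ?_
  simp only [Equiv.coe_mulRight, Equiv.Perm.mul_apply, e1, e2, Equiv.Perm.sign_mul, e3]
  rw [hT (fun j => θ j (w (τ (Fin.natAdd p j)))), smul_smul, mul_comm]

end Vale.Agent.P273.H188
end
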