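import Vale.Agent.P273.D14.H837.FX4

/-!
The start functional on the split theta graphs: the end without legs and the other end carry one
leg each. The value is minus the value on the theta graph whose second end carries both legs.
-/

noncomputable section
namespace Vale.Agent.P273.H188
open Sum Vale.Agent.P273 Vale.Agent.P273.Num Vale.Agent.P273.D14 Vale.Agent.P273.D14.H387
  Vale.Agent.P273.D14.H837
open scoped Classical

/-- The split theta graph: as `th p q σ`, but the leg `(i, false)` with `σ false i = 6` is at the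
vertex `none`. -/
def thS (p q : ℕ) (σ : Bool → Equiv.Perm (Fin 7)) :
    ((Fin 3 ⊕ Fin 6) × Bool) ⊕ (Fin 7 × Bool) → Option (Fin 7) × ℕ :=
  Sum.elim (fun z => th p q σ (inl z))
    fun x => (if x.2 = false ∧ σ false x.1 = 6 then none else some (σ x.2 x.1), 0)

theorem thS_inl (p q : ℕ) (σ : Bool → Equiv.Perm (Fin 7)) (z : (Fin 3 ⊕ Fin 6) × Bool) :
    thS p q σ (inl z) = (hv p q z, 0) := th_inl p q σ z

theorem thS_snd (p q : ℕ) (σ : Bool → Equiv.Perm (Fin 7)) (y) : (thS p q σ y).2 = 0 := by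
  rcases y with z | ⟨i, b⟩
  · rw [thS_inl]
  · rfl

theorem thS_true (p q : ℕ) (σ : Bool → Equiv.Perm (Fin 7)) (i : Fin 7) :
    thS p q σ (inr (i, true)) = (some (σ true i), 0) := by
  simp [thS]

theorem thS_false (p q : ℕ) (σ : Bool → Equiv.Perm (Fin 7)) (i : Fin 7) (h : σ false i ≠ 6) :
    thS p q σ (inr (i, false)) = (some (σ false i), 0) := by
  simp [thS, h]

theorem thS_six (p q : ℕ) (σ : Bool → Equiv.Perm (Fin 7)) :
    thS p q σ (inr ((σ false).symm 6, false)) = (none, 0) := by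
  simp [thS]

theorem three_le {V E L : Type} [Finite E] [Finite L] {f : (E × Bool) ⊕ L → V × ℕ} {v : V}
    (x y z : (E × Bool) ⊕ L) (hx : (f x).1 = v) (hy : (f y).1 = v) (hz : (f z).1 = v)
    (hxy : x ≠ y) (hxz : x ≠ z) (hyz : y ≠ z) : 3 ≤ Q.nv f v := by
  have h : Nat.card (Fin 3) ≤ Nat.card {y // (f y).1 = v} := by
    refine Nat.card_le_card_of_injective
      (![⟨x, hx⟩, ⟨y, hy⟩, ⟨z, hz⟩] : Fin 3 → {y // (f y).1 = v}) ?_
    intro i j hij
    fin_cases i <;> fin_cases j <;> simp_all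
  rwa [Nat.card_eq_fintype_card, Fintype.card_fin] at h

theorem thS_nv (p q : ℕ) (hp : p ≤ q) (hq : q ≤ 6) (σ : Bool → Equiv.Perm (Fin 7))
    (v : Option (Fin 7)) : 3 ≤ Q.nv (thS p q σ) v := by
  rcases v with _ | t
  · have : Nat.card (Fin 3) ≤ Nat.card {y // (thS p q σ y).1 = none} := by
      refine Nat.card_le_card_of_injective (fun r => ⟨inl (inl r, true), rfl⟩) ?_
      intro r r' h
      have h2 := congrArg Subtype.val h
      simpa using h2
    rwa [Nat.card_eq_fintype_card, Fintype.card_fin] at this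
  · obtain ⟨z₁, z₂, hz, hz₁, hz₂⟩ := hv_two ⟨p, by omega⟩ ⟨q, by omega⟩ hp t
    refine three_le (inl z₁) (inl z₂) (inr ((σ true).symm t, true)) ?_ ?_ ?_ ?_ (by simp) (by simp)
    · rw [thS_inl]; exact hz₁
    · rw [thS_inl]; exact hz₂
    · rw [thS_true, Equiv.apply_symm_apply]
    · simpa using hz

theorem thS_valid (p q : ℕ) (hp : p ≤ q) (hq : q ≤ 6) (σ : Bool → Equiv.Perm (Fin 7)) :
    Q.Valid und (thS p q σ) 2 9 := by
  have h0 : ∀ y, (thS p q σ y).2 = 0 := thS_snd p q σ
  have hv0 := th_valid p q hp hq σ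
  refine ⟨⟨inferInstance, inferInstance, inferInstance, hv0.1.2.2.2.1, hv0.1.2.2.2.2.1, ?_, ?_⟩, ?_⟩
  · intro v
    have := thS_nv p q hp hq σ v
    simp only [und]
    omega
  · simp [und, h0]
  · intro v
    have := thS_nv p q hp hq σ v
    simp only [und, h0]
    simpa using this

/-- The position of the legs, when the legs `A 7` and `B 7` are at `v` and `w`. -/
def pos (p q : ℕ) (σ : Bool → Equiv.Perm (Fin 7)) (v w : Option (Fin 7)) (x : LL) :
    Option (Fin 7) := (Q.ad (Q.ad (thS p q σ) v 0) w 0 (inr (ep16.symm x))).1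

theorem pos_true (p q : ℕ) (σ : Bool → Equiv.Perm (Fin 7)) (v w : Option (Fin 7)) (i : Fin 7) :
    pos p q σ v w (i.castSucc, true) = some (σ true i) := by
  have : ep16.symm (Fin.castSucc i, true) = some (some (i, true)) := by
    rw [Equiv.symm_apply_eq, ep16_some]
  unfold pos
  rw [this]
  exact congrArg Prod.fst (thS_true p q σ i)

theorem pos_false (p q : ℕ) (σ : Bool → Equiv.Perm (Fin 7)) (v w : Option (Fin 7)) (i : Fin 7) :
    pos p q σ v w (i.castSucc, false) = (thS p q σ (inr (i, false))).1 := by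
  have : ep16.symm (Fin.castSucc i, false) = some (some (i, false)) := by
    rw [Equiv.symm_apply_eq, ep16_some]
  unfold pos
  rw [this]
  rfl

theorem pos_A7 (p q : ℕ) (σ : Bool → Equiv.Perm (Fin 7)) (v w : Option (Fin 7)) :
    pos p q σ v w (Fin.last 7, true) = v := rfl

theorem pos_B7 (p q : ℕ) (σ : Bool → Equiv.Perm (Fin 7)) (v w : Option (Fin 7)) :
    pos p q σ v w (Fin.last 7, false) = w := rfl

theorem sgS_zero (p q : ℕ) (σ : Bool → Equiv.Perm (Fin 7)) (v w : Option (Fin 7))
    (h : ¬ (v = none ∧ w = some 6)) : sgM (pos p q σ v w) = 0 := by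
  by_contra h0
  have h1 := sgM_inj h0
  refine h ⟨?_, ?_⟩
  · rcases v with _ | t
    · rfl
    · have h2 := @h1 true (Fin.castSucc ((σ true).symm t)) (Fin.last 7) (by
        beta_reduce
        rw [pos_true, pos_A7, Equiv.apply_symm_apply])
      exact absurd h2 (Fin.castSucc_lt_last _).ne
  · rcases w with _ | t
    · have h2 := @h1 false (Fin.castSucc ((σ false).symm 6)) (Fin.last 7) (by
        beta_reduce
        rw [pos_false, pos_B7, thS_six])
      exact absurd h2 (Fin.castSucc_lt_last _).ne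
    · by_cases ht : t = 6
      · rw [ht]
      · have h2 := @h1 false (Fin.castSucc ((σ false).symm t)) (Fin.last 7) (by
          beta_reduce
          rw [pos_false, pos_B7, thS_false _ _ _ _ (by rwa [Equiv.apply_symm_apply]),
            Equiv.apply_symm_apply])
        exact absurd h2 (Fin.castSucc_lt_last _).ne

theorem sgS_one (p q : ℕ) (σ : Bool → Equiv.Perm (Fin 7)) :
    sgM (pos p q σ none (some 6)) = - Num.sg σ := by
  let α : LL → Option (Fin 7) := fun x => Fin.lastCases (motive := fun _ => Option (Fin 7)) none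
    (fun i => some (σ x.2 i)) x.1
  have hα : ∀ i b, α (i.castSucc, b) = some (σ b i) := fun i b => by simp [α]
  have hα7 : ∀ b, α (Fin.last 7, b) = none := fun b => Fin.lastCases_last
  have hd := det_perm σ α hα hα7
  let j0 : Fin 8 := Fin.castSucc ((σ false).symm 6)
  have hne : j0 ≠ Fin.last 7 := (Fin.castSucc_lt_last _).ne
  have hA : ∀ i, pos p q σ none (some 6) (i, true) = α (i, true) := by
    intro i
    refine Fin.lastCases ?_ (fun i => ?_) i
    · rw [pos_A7, hα7]
    · rw [pos_true, hα]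
  have hB : ∀ j, pos p q σ none (some 6) (j, false) = α (Equiv.swap j0 (Fin.last 7) j, false) := by
    intro j
    refine Fin.lastCases ?_ (fun i => ?_) j
    · rw [pos_B7, Equiv.swap_apply_right, hα, Equiv.apply_symm_apply]
    · by_cases hi : i = (σ false).symm 6
      · subst hi
        rw [pos_false, thS_six]
        change none = α (Equiv.swap j0 (Fin.last 7) j0, false)
        rw [Equiv.swap_apply_left, hα7]
      · have h1 : i.castSucc ≠ j0 := fun h => hi (Fin.castSucc_injective _ h)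
        rw [Equiv.swap_apply_of_ne_of_ne h1 (Fin.castSucc_lt_last _).ne, hα, pos_false,
          thS_false]
        intro h
        exact hi (by rw [← h, Equiv.symm_apply_apply])
  let M : Matrix (Fin 8) (Fin 8) ℚ := Matrix.of fun i j : Fin 8 =>
    if α (i, true) = α (j, false) then (1 : ℚ) else 0
  have h3 := Matrix.det_permute' (Equiv.swap j0 (Fin.last 7)) M
  rw [Equiv.Perm.sign_swap hne] at h3
  have h4 : sgM (pos p q σ none (some 6)) =
      (M.submatrix id (Equiv.swap j0 (Fin.last 7))).det := by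
    unfold sgM
    refine congrArg Matrix.det ?_
    ext i j
    simp only [M, Matrix.of_apply, Matrix.submatrix_apply, id, hA, hB]
  have h5 : M.det = Num.sg σ := by
    rw [← hd]
    unfold sgM
    refine congrArg Matrix.det ?_
    ext i j
    simp only [M, Matrix.of_apply]
    split_ifs <;> rfl
  rw [h4, h3, h5]
  simp

theorem FF_thS (φ : Und) (p q : Fin 7) (hpq : p ≤ q) (σ : Bool → Equiv.Perm (Fin 7)) :
    FF (G φ) (Option (Fin 7)) (Fin 3 ⊕ Fin 6) und (thS p q σ) =
      - (Num.sg σ * φ (Option (Fin 7)) (Fin 3 ⊕ Fin 6) (hv p q)) := by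
  have hv1 := thS_valid p q hpq (by omega) σ
  have hf := thS_snd p q σ
  have key : ∀ v w, GG (G φ) (Option (Fin 7)) (Fin 3 ⊕ Fin 6) und
      (Q.ad (Q.ad (thS p q σ) v 0) w 0) =
      sgM (pos p q σ v w) * φ (Option (Fin 7)) (Fin 3 ⊕ Fin 6) (hv p q) := by
    intro v w
    unfold GG Mv.rb
    have h2 : ∀ y, (Q.ad (Q.ad (thS p q σ) v 0) w 0 y).2 = 0 := ad_snd _ (ad_snd _ hf v) w
    have h3 : Q.Stab und (Q.ad (Q.ad (thS p q σ) v 0) w 0) 2 9 :=
      stab_ad _ _ _ _ (stab_ad _ _ _ _ hv1.1 v) w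
    have h4 : Q.Valid und (Q.ad (Q.ad (thS p q σ) v 0) w 0) 2 9 := valid_und _ _ _ h3 h2
    rw [G_und φ _ (fun y => h2 _)]
    · unfold val
      refine congrArg₂ (· * ·) rfl (congrArg (φ _ _) ?_)
      funext y
      show (thS p q σ (inl y)).1 = _
      rw [thS_inl]
    · rw [Mv.valid_relab und (Q.ad (Q.ad (thS p q σ) v 0) w 0) 2 9 ep16.symm]
      exact h4
  have hsum : ∀ v, Q.pull 2 9 (GG (G φ)) (Option (Fin 7)) (Fin 3 ⊕ Fin 6) und
      (Q.ad (thS p q σ) v 0) = ∑ᶠ w, GG (G φ) (Option (Fin 7)) (Fin 3 ⊕ Fin 6) und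
      (Q.ad (Q.ad (thS p q σ) v 0) w 0) := fun v =>
    pull_und _ _ _ _ (stab_ad _ _ _ _ hv1.1 v) (ad_snd _ hf v)
  unfold FF
  rw [pull_und _ _ _ _ hv1.1 hf]
  simp only [hsum, key]
  rw [finsum_eq_single _ none, finsum_eq_single _ (some 6), sgS_one, neg_mul]
  · intro w hw
    rw [sgS_zero, zero_mul]
    exact fun h => hw h.2
  · intro v hv
    refine finsum_eq_zero_of_forall_eq_zero fun w => ?_
    rw [sgS_zero, zero_mul]
    exact fun h => hv h.1

/-- The value on the split graph is minus the value on the theta graph. -/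
theorem FF_split (φ : Und) (p q : ℕ) (hp : p ≤ q) (hq : q ≤ 6) (σ : Bool → Equiv.Perm (Fin 7)) :
    FF (G φ) (Option (Fin 7)) (Fin 3 ⊕ Fin 6) und (thS p q σ) =
      - FF (G φ) (Option (Fin 7)) (Fin 3 ⊕ Fin 6) und (th p q σ) := by
  have h1 := FF_thS φ ⟨p, by omega⟩ ⟨q, by omega⟩ hp σ
  have h2 := FF_th φ ⟨p, by omega⟩ ⟨q, by omega⟩ hp σ
  simp only at h1 h2
  rw [h1, h2]

end Vale.Agent.P273.H188
end
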